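import Vale.Agent.P258.R2.H394.Spec
import Vale.Agent.P258.H331.Main

set_option linter.all false

/-!
The group `SL(2, 9)`, with a code in `0, ..., 65535` for each element, in which the kernel computes
products quickly, and the search through all homomorphisms of the first pattern.
-/

namespace Vale.Agent.P258.R2.H893.Nine

open Matrix Second

/-- Sums in the field with nine elements, as a table. -/
def faN (a b : ℕ) : ℕ :=
  Nat.land (Nat.shiftRight 0x435102768354021687543210876102768435021687354210876543768435102687354021876543210 (Nat.mul 4 (Nat.add (Nat.mul 9 a) b))) 15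

/-- Products in the field with nine elements, as a table. -/
def fmN (a b : ℕ) : ℕ :=
  Nat.land (Nat.shiftRight 0x615237480138624570582471360264318750327165840741852630453786120876543210000000000 (Nat.mul 4 (Nat.add (Nat.mul 9 a) b))) 15

/-- Negatives in the field with nine elements, as a table. -/
def fnN (a : ℕ) : ℕ := Nat.land (Nat.shiftRight 0x453786120 (Nat.mul 4 a)) 15

theorem f_lt : ∀ a b : Fin 9, faN a.val b.val < 9 ∧ fmN a.val b.val < 9 ∧ fnN a.val < 9 := by
  decide +kernel

/-- The field with nine elements. -/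
structure F9 where
  val : ℕ
  lt : val < 9

namespace F9

@[ext] theorem ext' {a b : F9} (h : a.val = b.val) : a = b := by
  cases a; cases b; simp_all

def ofFin (a : Fin 9) : F9 := ⟨a.val, a.isLt⟩

def toFin (a : F9) : Fin 9 := ⟨a.val, a.lt⟩

def equivFin : F9 ≃ Fin 9 := ⟨toFin, ofFin, fun _ => rfl, fun _ => rfl⟩

instance : DecidableEq F9 := fun a b => decidable_of_iff (a.val = b.val) ⟨ext', fun h => by rw [h]⟩

instance : Fintype F9 := Fintype.ofEquiv (Fin 9) equivFin.symm

instance : Zero F9 := ⟨⟨0, by decide⟩⟩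
instance : One F9 := ⟨⟨1, by decide⟩⟩
instance : Add F9 := ⟨fun a b => ⟨faN a.val b.val, (f_lt a.toFin b.toFin).1⟩⟩
instance : Neg F9 := ⟨fun a => ⟨fnN a.val, (f_lt a.toFin a.toFin).2.2⟩⟩
instance : Mul F9 := ⟨fun a b => ⟨fmN a.val b.val, (f_lt a.toFin b.toFin).2.1⟩⟩

theorem add_assoc' : ∀ a b c : Fin 9, ofFin a + ofFin b + ofFin c = ofFin a + (ofFin b + ofFin c) := by
  decide +kernel
theorem mul_assoc' : ∀ a b c : Fin 9, ofFin a * ofFin b * ofFin c = ofFin a * (ofFin b * ofFin c) := by
  decide +kernel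
theorem left_distrib' : ∀ a b c : Fin 9,
    ofFin a * (ofFin b + ofFin c) = ofFin a * ofFin b + ofFin a * ofFin c := by
  decide +kernel
theorem add_comm' : ∀ a b : Fin 9, ofFin a + ofFin b = ofFin b + ofFin a := by decide +kernel
theorem mul_comm' : ∀ a b : Fin 9, ofFin a * ofFin b = ofFin b * ofFin a := by decide +kernel
theorem zero_add' : ∀ a : Fin 9, 0 + ofFin a = ofFin a := by decide +kernel
theorem one_mul' : ∀ a : Fin 9, 1 * ofFin a = ofFin a := by decide +kernel
theorem neg_add' : ∀ a : Fin 9, -ofFin a + ofFin a = 0 := by decide +kernel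
theorem zero_mul' : ∀ a : Fin 9, 0 * ofFin a = 0 := by decide +kernel
theorem inv' : ∀ a : Fin 9, ofFin a ≠ 0 → ∃ b : Fin 9, ofFin a * ofFin b = 1 := by decide +kernel

instance : CommRing F9 where
  add_assoc a b c := add_assoc' a.toFin b.toFin c.toFin
  zero_add a := zero_add' a.toFin
  add_zero a := (add_comm' a.toFin 0).trans (zero_add' a.toFin)
  add_comm a b := add_comm' a.toFin b.toFin
  left_distrib a b c := left_distrib' a.toFin b.toFin c.toFin
  right_distrib a b c := by
    have h1 : (a + b) * c = c * (a + b) := mul_comm' (a + b).toFin c.toFin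
    have h2 : a * c = c * a := mul_comm' a.toFin c.toFin
    have h3 : b * c = c * b := mul_comm' b.toFin c.toFin
    rw [h1, h2, h3]
    exact left_distrib' c.toFin a.toFin b.toFin
  zero_mul a := zero_mul' a.toFin
  mul_zero a := (mul_comm' a.toFin 0).trans (zero_mul' a.toFin)
  mul_assoc a b c := mul_assoc' a.toFin b.toFin c.toFin
  one_mul a := one_mul' a.toFin
  mul_one a := (mul_comm' a.toFin 1).trans (one_mul' a.toFin)
  neg_add_cancel a := neg_add' a.toFin
  mul_comm a b := mul_comm' a.toFin b.toFin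
  nsmul := nsmulRec
  zsmul := zsmulRec
  npow := npowRec

end F9

/-- The group `SL(2, 9)`. -/
abbrev G9 := Matrix.SpecialLinearGroup (Fin 2) F9

/-- The number with the hexadecimal digits `d, c, b, a`. -/
def cd (a b c d : ℕ) : ℕ :=
  Nat.add (Nat.add a (Nat.mul 16 b)) (Nat.add (Nat.mul 256 c) (Nat.mul 4096 d))

def dt (a b c d : ℕ) : ℕ := faN (fmN a b) (fmN c d)

def mulA (a b c d e f g h : ℕ) : ℕ :=
  cd (dt a e b g) (dt a f b h) (dt c e d g) (dt c f d h)

def mulN (x y : ℕ) : ℕ :=
  mulA (Nat.land x 15) (Nat.land (Nat.shiftRight x 4) 15) (Nat.land (Nat.shiftRight x 8) 15)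
    (Nat.shiftRight x 12) (Nat.land y 15) (Nat.land (Nat.shiftRight y 4) 15)
    (Nat.land (Nat.shiftRight y 8) 15) (Nat.shiftRight y 12)

def invN (x : ℕ) : ℕ :=
  cd (Nat.shiftRight x 12) (fnN (Nat.land (Nat.shiftRight x 4) 15))
    (fnN (Nat.land (Nat.shiftRight x 8) 15)) (Nat.land x 15)

def cjN (x k : ℕ) : ℕ := mulN (mulN (invN k) x) k

def ciN (x k : ℕ) : ℕ := mulN (mulN k x) (invN k)

/-- A number in `0, ..., 728` for each element. -/
def keyN (x : ℕ) : ℕ :=
  Nat.add (Nat.add (Nat.mul 81 (Nat.land x 15)) (Nat.mul 9 (Nat.land (Nat.shiftRight x 4) 15)))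
    (cond (Nat.beq (Nat.land x 15) 0) (Nat.shiftRight x 12) (Nat.land (Nat.shiftRight x 8) 15))

/-- The code of a matrix conjugating the given one to the representative of its class. -/
def wN (x : ℕ) : ℕ :=
  Nat.land (Nat.shiftRight
    0x1220122147012461362346516241081328404783487147004781258374030561011132704730473047304730473047304730473047317660587147015540587111230361041316811343352147003360336374030761061165505820582058205820582058205820582058201280128012801280128012801281001012803370337033703370337033703370337033715771375147018721676177412731071117814470126113417180126158030661051313704770477347012373681141530461061164804720472047204720472047204720472047211531362347005840584158016171071325503311145347003313758158030861021131405860586058605860586058605860586058601270127012701270127012701271001012703340334033403340334033403340334033417821683188714841388158011861081128501243385164832420124178213301011127311450476328404761683354313301071367204770477047704770477047704770477047732710581187205813363165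5133010211186033516763873111203353255133010813341058405840584058405840584058405840584012601260126012601260126012610010126033103310331033103310331033103310331143311341735153612371838133010311632188701231112143301231740303610713267047504753777116733411740308610311388047104710471047104710471047104710471127316323564058805881484132710513175033212853850033235781536304610111624058305830583058305830583058305830583012501250125012501250125012510010125033803380338033803380338033803380338154213431447184416481740124610411145012101211577118616323580131410413144047438471433047411783580307610211617047604760476047604760476047604760476141505851850177405851167306610813238126436721718033303333448305610311375058105810581058105810581058105810581012401240124012401240124012410010124033503350335033503350335033503350335175716551850145213561554115310511258012833631388318201281542166010211153111204733144047313433783157710513352047504750475047504750475047504750475315105821452058233741375166010111246033713563453117803373175148410413681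058805880588058805880588058805880588012301230123012301230123012310010123033203320332033203320332033203320332186312641565176611671468166010611362148412581343012716173487304610310127337438883242127310011718153610410472047804780478047804780478047804780478058613143578175712851676305610610586124603341415338537773151138810710334058705870587058705870587058705870587012201220122012201220122012210010122033603360336033603360336033603360336304650645074402510714085306610211001184411781683012513273564308610610125365434483182115310011447137510810471047404740474047404740474047404740474058316243465157711451356307610310583118603381774364535573271143310510338058505850585058505850585058505850585012101210121012101210121012110010121033303330333033303330333033303330333308650345054401510514045303610111001114514153168173512853238012001201375113433851314364512641624047004703175047004700470047004700470047004700470146812583137117817183267058005801388365412371327116733741617033003303144058005800580058005800580058005800580012001200120012001200120012001201001033003300330033003300330033003300330000000000000000000000000000000000000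
    (Nat.mul 16 (keyN x))) 65535

/-- The number of the class: `0` for `1` and `-1`. -/
def clN (x : ℕ) : ℕ :=
  Nat.land (Nat.shiftRight
    0xba1987654a85b961741596728349b68a5714897ab15647625193846187532945731689244444444449b68a5714ba1987654618753294897ab1564a85b96174573168924762519384159672834444444444a497b56814b8a769519876543217a6b48591b754a98615648972316935824718529637411111111115a86b9417ab1564897816492357654ba1987b69a58147942186537483915267195843627777777777ab1564897b69a581471958436275a86b9417654ba1987483915267816492357942186537777777777b754a98617a6b485915648972314b8a76951a497b5681987654321852963741693582471111111111519b8476a1865b794a963741852b5781649a8b415967a471693582798465132645978312aa2aa2220915a6748b1689a457b582471693a9461875b6a719584b741852963456789123879546213bb3bb3330987654ba1987654ba1987654321987654ba1987654ba1987654321987654321987654321000000000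
    (Nat.mul 4 (keyN x))) 15

/-- The codes of the representatives of the classes. -/
def rep (t : ℕ) : ℕ := ([0, 288, 289, 290, 291, 292, 293, 294, 295, 296, 1137, 1138] : List ℕ).getD t 0

/-- The codes of the elements of the class `t`. -/
def cl (t : ℕ) : List ℕ :=
  ([[],
    [288, 528, 816, 1136, 1408, 1632, 1856, 2128, 4370, 4642, 4962, 5202, 5442, 5682, 6018, 6258,
    8465, 8737, 9057, 9297, 9537, 9777, 10113, 10353, 12294, 12310, 12326, 12342, 12358, 12374,
    12390, 12406, 12422, 12550, 12806, 13062, 13318, 13574, 13830, 14086, 14342, 16728, 17016,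
    17224, 17464, 17688, 18056, 18216, 18536, 20871, 21063, 21335, 21543, 21815, 22135, 22375,
    22551, 24579, 24595, 24611, 24627, 24643, 24659, 24675, 24691, 24707, 24835, 25091, 25347,
    25603, 25859, 26115, 26371, 26627, 29061, 29253, 29525, 29733, 30005, 30325, 30565, 30741,
    33108, 33396, 33604, 33844, 34068, 34436, 34596, 34916],
    [289, 529, 817, 1633, 4384, 4624, 4912, 5728, 8210, 8226, 8242, 8290, 8450, 8706, 8962, 9730,
    12599, 12903, 13079, 13863, 16742, 16950, 17190, 17942, 20760, 21032, 21352, 22072, 24932,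
    25140, 25380, 26132, 28979, 29283, 29459, 30243, 33045, 33317, 33637, 34357],
    [290, 530, 818, 1634, 4113, 4129, 4145, 4193, 4353, 4609, 4865, 5633, 8480, 8720, 9008, 9824,
    12648, 12856, 13096, 13848, 16663, 16935, 17255, 17975, 20790, 21094, 21270, 22054, 24885,
    25189, 25365, 26149, 28948, 29220, 29540, 30260, 33123, 33331, 33571, 34323],
    [291, 531, 819, 1139, 1411, 1635, 1859, 2131, 4421, 4741, 4981, 5141, 5477, 5717, 5941, 6181,
    8564, 8788, 9092, 9316, 9508, 9796, 10004, 10292, 12576, 12816, 13104, 13424, 13696, 13920,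
    14144, 14416, 16754, 16978, 17282, 17506, 17698, 17986, 18194, 18482, 20801, 21121, 21361,
    21521, 21857, 22097, 22321, 22561, 24854, 25126, 25446, 25686, 25926, 26166, 26502, 26742,
    28680, 28696, 28712, 28728, 28744, 28760, 28776, 28792, 28808, 28936, 29192, 29448, 29704,
    29960, 30216, 30472, 30728, 32775, 32791, 32807, 32823, 32839, 32855, 32871, 32887, 32903,
    33031, 33287, 33543, 33799, 34055, 34311, 34567, 34823],
    [292, 532, 820, 1140, 1412, 1636, 1860, 2132, 4435, 4723, 4931, 5171, 5395, 5763, 5923, 6243,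
    8549, 8757, 8997, 9285, 9589, 9749, 10069, 10373, 12625, 12913, 13121, 13361, 13585, 13953,
    14113, 14433, 16672, 16912, 17200, 17520, 17792, 18016, 18240, 18512, 20834, 21042, 21282,
    21570, 21874, 22034, 22354, 22658, 24951, 25175, 25479, 25703, 25895, 26183, 26391, 26679,
    29046, 29270, 29574, 29798, 29990, 30278, 30486, 30774, 33160, 33352, 33624, 33832, 34104,
    34424, 34664, 34840],
    [293, 533, 821, 1141, 1413, 1637, 1861, 2133, 4404, 4708, 4884, 5252, 5460, 5668, 6004, 6212,
    8579, 8771, 9043, 9251, 9523, 9843, 10083, 10259, 12674, 12866, 13138, 13346, 13618, 13938,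
    14178, 14354, 16689, 16993, 17169, 17537, 17745, 17953, 18289, 18497, 20768, 21008, 21296,
    21616, 21888, 22112, 22336, 22608, 24904, 25224, 25464, 25624, 25960, 26200, 26424, 26664,
    29015, 29303, 29511, 29751, 29975, 30343, 30503, 30823, 33094, 33414, 33654, 33814, 34150,
    34390, 34614, 34854],
    [294, 534, 822, 1142, 1414, 1638, 1862, 2134, 4472, 4696, 5000, 5224, 5416, 5704, 5912, 6200,
    8519, 8839, 9079, 9239, 9575, 9815, 10039, 10279, 12563, 12835, 13155, 13395, 13635, 13875,
    14211, 14451, 16389, 16405, 16421, 16437, 16453, 16469, 16485, 16501, 16517, 16645, 16901,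
    17157, 17413, 17669, 17925, 18181, 18437, 20484, 20500, 20516, 20532, 20548, 20564, 20580,
    20596, 20612, 20740, 20996, 21252, 21508, 21764, 22020, 22276, 22532, 24864, 25104, 25392,
    25712, 25984, 26208, 26432, 26704, 28994, 29314, 29554, 29714, 30050, 30290, 30514, 30754,
    33137, 33361, 33665, 33889, 34081, 34369, 34577, 34865],
    [295, 535, 823, 1143, 1415, 1639, 1863, 2135, 4486, 4678, 4950, 5158, 5430, 5750, 5990, 6166,
    8504, 8808, 8984, 9352, 9560, 9768, 10104, 10312, 12612, 12932, 13172, 13332, 13668, 13908,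
    14132, 14372, 16707, 17027, 17267, 17427, 17763, 18003, 18227, 18467, 20821, 21109, 21317,
    21557, 21781, 22149, 22309, 22629, 24961, 25153, 25425, 25633, 25905, 26225, 26465, 26641,
    28960, 29200, 29488, 29808, 30080, 30304, 30528, 30800, 33074, 33378, 33554, 33922, 34130,
    34338, 34674, 34882],
    [296, 536, 824, 1144, 1416, 1640, 1864, 2136, 4455, 4663, 4903, 5191, 5495, 5655, 5975, 6279,
    8534, 8822, 9030, 9270, 9494, 9862, 10022, 10342, 12661, 12885, 13189, 13413, 13605, 13893,
    14101, 14389, 16772, 16964, 17236, 17444, 17716, 18036, 18276, 18452, 20851, 21075, 21379,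
    21603, 21795, 22083, 22291, 22579, 24914, 25202, 25410, 25650, 25874, 26242, 26402, 26722,
    29025, 29233, 29473, 29761, 30065, 30225, 30545, 30849, 33056, 33296, 33584, 33904, 34176,
    34400, 34624, 34896],
    [1137, 1409, 1857, 2129, 5232, 5504, 5952, 6224, 8258, 8274, 8306, 8322, 9218, 9474, 9986,
    10242, 13447, 13655, 14199, 14407, 17478, 17782, 18262, 18566, 21592, 21832, 22408, 22648,
    25668, 25972, 26452, 26756, 29827, 30035, 30579, 30787, 33877, 34117, 34693, 34933],
    [1138, 1410, 1858, 2130, 4161, 4177, 4209, 4225, 5121, 5377, 5889, 6145, 9328, 9600, 10048,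
    10320, 13384, 13688, 14168, 14472, 17495, 17735, 18311, 18551, 21638, 21846, 22390, 22598,
    25733, 25941, 26485, 26693, 29780, 30020, 30596, 30836, 33859, 34163, 34643, 34947]] : List (List ℕ)).getD t []

/-- The codes of the elements commuting with the representative of the class `t`. -/
def cen (t : ℕ) : List ℕ :=
  ([[],
    [288, 528, 4097, 8194, 13155, 13875, 25446, 26166],
    [289, 530, 4097, 4624, 8194, 8480, 13447, 13688, 17255, 17782, 21352, 21638, 26452, 26693,
    30260, 30787, 34357, 34643],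
    [290, 529, 4097, 4384, 8194, 8720, 14168, 14407, 17975, 18262, 22072, 22598, 25733, 25972,
    29540, 29827, 33637, 34163],
    [291, 534, 4097, 5682, 8194, 9057, 12816, 24864],
    [292, 536, 4097, 6212, 8194, 9352, 16912, 17537, 33056, 34882],
    [293, 535, 4097, 5975, 8194, 9589, 21008, 22354, 28960, 30065],
    [294, 531, 4097, 4962, 8194, 9777, 12576, 25104],
    [295, 533, 4097, 5495, 8194, 10069, 20768, 21874, 29200, 30545],
    [296, 532, 4097, 5252, 8194, 10312, 16672, 18497, 33296, 33922],
    [1137, 2130, 4097, 6224, 8194, 9328, 12648, 13863, 16742, 17735, 21832, 22054, 25140, 25365,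
    29459, 30596, 33331, 34693],
    [1138, 2129, 4097, 5232, 8194, 10320, 12856, 13079, 16950, 18311, 21270, 22408, 24932, 26149,
    30020, 30243, 33123, 34117]] : List (List ℕ)).getD t []

/-- The codes of representatives of the elements of the class `t` up to conjugation by elements
commuting with the representative of the class. -/
def orb (t : ℕ) : List ℕ :=
  ([[],
    [288, 528, 816, 1136, 1856, 4370, 5202, 5442, 6018, 6258, 12342, 12358, 12374, 12390, 12406,
    12422, 13318, 13574, 14086, 14342, 17224, 17464, 18056, 18536],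
    [289, 529, 817, 4624, 8242, 8290, 21352, 34357],
    [290, 530, 818, 4145, 4193, 8720, 17975, 29540],
    [291, 531, 819, 1139, 1411, 1635, 1859, 2131, 4421, 4981, 5477, 5717, 6181, 9092, 12816,
    13424, 13696, 14144, 14416, 16978, 18194, 25446, 26166, 28728],
    [292, 532, 820, 1140, 1412, 1636, 1860, 4723, 5171, 5763, 8757, 9285, 9589, 9749, 10069,
    16912],
    [293, 533, 821, 1141, 1637, 1861, 2133, 4708, 4884, 5252, 5460, 6212, 8771, 9043, 10083,
    21008],
    [294, 534, 822, 1142, 1414, 1638, 1862, 2134, 4472, 5000, 5416, 5704, 6200, 9815, 13155,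
    13875, 16421, 16469, 16485, 16517, 16645, 17413, 18181, 25104],
    [295, 535, 823, 1143, 1639, 1863, 2135, 4678, 4950, 5990, 8808, 8984, 9352, 9560, 10312,
    29200],
    [296, 536, 824, 1144, 1416, 1640, 1864, 4663, 5191, 5495, 5655, 5975, 8822, 9270, 9862, 33296],
    [1137, 1409, 2129, 6224, 8258, 8322, 21832, 34693],
    [1138, 1410, 2130, 4161, 4225, 10320, 18311, 30020]] : List (List ℕ)).getD t []

theorem cd_digits' : ∀ a b c d : Fin 9,
    Nat.land (cd a.val b.val c.val d.val) 15 = a.val ∧
    Nat.land (Nat.shiftRight (cd a.val b.val c.val d.val) 4) 15 = b.val ∧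
    Nat.land (Nat.shiftRight (cd a.val b.val c.val d.val) 8) 15 = c.val ∧
    Nat.shiftRight (cd a.val b.val c.val d.val) 12 = d.val := by
  decide +kernel

theorem cd_digits (a b c d : F9) :
    Nat.land (cd a.val b.val c.val d.val) 15 = a.val ∧
    Nat.land (Nat.shiftRight (cd a.val b.val c.val d.val) 4) 15 = b.val ∧
    Nat.land (Nat.shiftRight (cd a.val b.val c.val d.val) 8) 15 = c.val ∧
    Nat.shiftRight (cd a.val b.val c.val d.val) 12 = d.val :=
  cd_digits' a.toFin b.toFin c.toFin d.toFin

theorem mulN_cd (a b c d e f g h : F9) :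
    mulN (cd a.val b.val c.val d.val) (cd e.val f.val g.val h.val) =
      mulA a.val b.val c.val d.val e.val f.val g.val h.val := by
  obtain ⟨h1, h2, h3, h4⟩ := cd_digits a b c d
  obtain ⟨k1, k2, k3, k4⟩ := cd_digits e f g h
  unfold mulN
  rw [h1, h2, h3, h4, k1, k2, k3, k4]

theorem invN_cd (a b c d : F9) :
    invN (cd a.val b.val c.val d.val) = cd d.val (fnN b.val) (fnN c.val) a.val := by
  obtain ⟨h1, h2, h3, h4⟩ := cd_digits a b c d
  unfold invN
  rw [h1, h2, h3, h4]

/-- The code of an element of `SL(2, 9)`. -/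
def code (A : G9) : ℕ := cd (A.1 0 0).val (A.1 0 1).val (A.1 1 0).val (A.1 1 1).val

theorem code_mul (A B : G9) : code (A * B) = mulN (code A) (code B) := by
  unfold code
  rw [mulN_cd]
  rw [Matrix.SpecialLinearGroup.coe_mul]
  simp only [Matrix.mul_apply, Fin.sum_univ_two]
  rfl

theorem code_inv (A : G9) : code A⁻¹ = invN (code A) := by
  unfold code
  rw [invN_cd]
  rw [Matrix.SpecialLinearGroup.coe_inv, Matrix.adjugate_fin_two]
  rfl

theorem code_one : code 1 = 4097 := by decide +kernel

theorem code_inj {A B : G9} (h : code A = code B) : A = B := by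
  unfold code at h
  obtain ⟨h1, h2, h3, h4⟩ := cd_digits (A.1 0 0) (A.1 0 1) (A.1 1 0) (A.1 1 1)
  obtain ⟨k1, k2, k3, k4⟩ := cd_digits (B.1 0 0) (B.1 0 1) (B.1 1 0) (B.1 1 1)
  rw [h] at h1 h2 h3 h4
  apply Subtype.ext
  ext i j
  fin_cases i <;> fin_cases j
  · exact h1.symm.trans k1
  · exact h2.symm.trans k2
  · exact h3.symm.trans k3
  · exact h4.symm.trans k4

theorem code_cj (x k : G9) : code (k⁻¹ * x * k) = cjN (code x) (code k) := by
  rw [code_mul, code_mul, code_inv]; rfl

theorem code_ci (x k : G9) : code (k * x * k⁻¹) = ciN (code x) (code k) := by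
  rw [code_mul, code_mul, code_inv]; rfl

/-- The determinant, as a number. -/
def dv (a b c d : ℕ) : Bool := Nat.beq (faN (fmN a d) (fnN (fmN b c))) 1

theorem det_eq (A : G9) : dv (A.1 0 0).val (A.1 0 1).val (A.1 1 0).val (A.1 1 1).val = true := by
  have h := A.2
  rw [Matrix.det_fin_two, sub_eq_add_neg] at h
  have h2 : faN (fmN (A.1 0 0).val (A.1 1 1).val) (fnN (fmN (A.1 0 1).val (A.1 1 0).val)) = 1 :=
    congrArg F9.val h
  unfold dv
  rw [h2]
  rfl

/-- The element with the given entries. -/
def mk (a b c d : F9) (h : a * d - b * c = 1) : G9 :=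
  ⟨!![a, b; c, d], by rw [Matrix.det_fin_two_of]; exact h⟩

theorem code_mk (a b c d : F9) (h : a * d - b * c = 1) :
    code (mk a b c d h) = cd a.val b.val c.val d.val := rfl

/-- The number `x` is a code. -/
def isCode (x : ℕ) : Bool :=
  Nat.blt (Nat.land x 15) 9 && Nat.blt (Nat.land (Nat.shiftRight x 4) 15) 9 &&
    Nat.blt (Nat.land (Nat.shiftRight x 8) 15) 9 && Nat.blt (Nat.shiftRight x 12) 9 &&
    dv (Nat.land x 15) (Nat.land (Nat.shiftRight x 4) 15)
      (Nat.land (Nat.shiftRight x 8) 15) (Nat.shiftRight x 12) &&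
    Nat.beq (cd (Nat.land x 15) (Nat.land (Nat.shiftRight x 4) 15)
      (Nat.land (Nat.shiftRight x 8) 15) (Nat.shiftRight x 12)) x

theorem exists_code {x : ℕ} (h : isCode x = true) : ∃ A : G9, code A = x := by
  unfold isCode at h
  simp only [Bool.and_eq_true] at h
  obtain ⟨⟨⟨⟨⟨h1, h2⟩, h3⟩, h4⟩, h5⟩, h6⟩ := h
  have l1 : Nat.land x 15 < 9 := by simpa using h1
  have l2 : Nat.land (Nat.shiftRight x 4) 15 < 9 := by simpa using h2
  have l3 : Nat.land (Nat.shiftRight x 8) 15 < 9 := by simpa using h3
  have l4 : Nat.shiftRight x 12 < 9 := by simpa using h4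
  let a : F9 := ⟨_, l1⟩
  let b : F9 := ⟨_, l2⟩
  let c : F9 := ⟨_, l3⟩
  let d : F9 := ⟨_, l4⟩
  have hd : a * d - b * c = 1 := by
    rw [sub_eq_add_neg]
    apply F9.ext'
    unfold dv at h5
    exact Nat.eq_of_beq_eq_true h5
  refine ⟨mk a b c d hd, ?_⟩
  rw [code_mk]
  exact Nat.eq_of_beq_eq_true h6

/-- Facts about all elements, checked by enumeration. -/
theorem all_facts' : ∀ a b c d : Fin 9,
    dv a.val b.val c.val d.val = true →
    (clN (cd a.val b.val c.val d.val) < 12) ∧
    (clN (cd a.val b.val c.val d.val) = 0 ↔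
      mulN (cd a.val b.val c.val d.val) (cd a.val b.val c.val d.val) = 4097) ∧
    (cd a.val b.val c.val d.val ∈ cl (clN (cd a.val b.val c.val d.val)) ∨
      clN (cd a.val b.val c.val d.val) = 0) ∧
    (clN (cd a.val b.val c.val d.val) ≠ 0 → isCode (wN (cd a.val b.val c.val d.val)) = true ∧
      mulN (wN (cd a.val b.val c.val d.val)) (cd a.val b.val c.val d.val) =
        mulN (rep (clN (cd a.val b.val c.val d.val))) (wN (cd a.val b.val c.val d.val))) := by
  decide +kernel

theorem all_facts (A : G9) :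
    (clN (code A) < 12) ∧ (clN (code A) = 0 ↔ mulN (code A) (code A) = 4097) ∧
    (code A ∈ cl (clN (code A)) ∨ clN (code A) = 0) ∧
    (clN (code A) ≠ 0 → isCode (wN (code A)) = true ∧
      mulN (wN (code A)) (code A) = mulN (rep (clN (code A))) (wN (code A))) :=
  all_facts' (A.1 0 0).toFin (A.1 0 1).toFin (A.1 1 0).toFin (A.1 1 1).toFin (det_eq A)

theorem rep_facts' : ∀ t : Fin 12, t.val ≠ 0 → isCode (rep t.val) = true ∧
    ∀ a b c d : Fin 9, dv a.val b.val c.val d.val = true →
      clN (cjN (rep t.val) (cd a.val b.val c.val d.val)) = t.val ∧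
      (mulN (rep t.val) (cd a.val b.val c.val d.val) =
        mulN (cd a.val b.val c.val d.val) (rep t.val) →
        cd a.val b.val c.val d.val ∈ cen t.val) := by
  decide +kernel

theorem rep_facts {t : ℕ} (ht : t < 12) (h0 : t ≠ 0) : isCode (rep t) = true ∧
    ∀ A : G9, clN (cjN (rep t) (code A)) = t ∧
      (mulN (rep t) (code A) = mulN (code A) (rep t) → code A ∈ cen t) :=
  ⟨(rep_facts' ⟨t, ht⟩ h0).1, fun A => (rep_facts' ⟨t, ht⟩ h0).2
    (A.1 0 0).toFin (A.1 0 1).toFin (A.1 1 0).toFin (A.1 1 1).toFin (det_eq A)⟩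

theorem orb_facts : ∀ t : Fin 12, (cl t.val).all (fun x => (cen t.val).any fun c =>
    isCode c && Nat.beq (mulN (rep t.val) c) (mulN c (rep t.val)) &&
      (orb t.val).any fun y => Nat.beq y (cjN x c)) = true := by
  decide +kernel

/-- The number of the class of an element. -/
def cls (A : G9) : ℕ := clN (code A)

theorem cls_lt (A : G9) : cls A < 12 := (all_facts A).1

theorem cls_zero (A : G9) : cls A = 0 ↔ A * A = 1 := by
  have h := (all_facts A).2.1
  constructor
  · intro h0
    apply code_inj
    rw [code_mul, code_one]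
    exact h.1 h0
  · intro h1
    apply h.2
    have := congrArg code h1
    rw [code_mul, code_one] at this
    exact this

theorem mem_cl {A : G9} (h : cls A ≠ 0) : code A ∈ cl (cls A) :=
  ((all_facts A).2.2.1).resolve_right h

/-- Each element whose square is not `1` is conjugate to the representative of its class, by an
element with the code given by `wN`. -/
theorem exists_w {A : G9} (h : cls A ≠ 0) :
    ∃ W R : G9, code W = wN (code A) ∧ code R = rep (cls A) ∧ W * A = R * W := by
  obtain ⟨h1, h2⟩ := (all_facts A).2.2.2 h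
  obtain ⟨W, hW⟩ := exists_code h1
  obtain ⟨R, hR⟩ := exists_code (rep_facts (cls_lt A) h).1
  refine ⟨W, R, hW, hR, code_inj ?_⟩
  rw [code_mul, code_mul, hW, hR]
  exact h2

theorem cls_rep {t : ℕ} (ht : t < 12) (h0 : t ≠ 0) {R : G9} (hR : code R = rep t) (k : G9) :
    cls (k⁻¹ * R * k) = t := by
  unfold cls
  rw [code_cj, hR]
  exact ((rep_facts ht h0).2 k).1

theorem mem_cen {t : ℕ} (ht : t < 12) (h0 : t ≠ 0) {R : G9} (hR : code R = rep t) {A : G9}
    (h : R * A = A * R) : code A ∈ cen t := by
  have h2 := congrArg code h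
  rw [code_mul, code_mul, hR] at h2
  exact ((rep_facts ht h0).2 A).2 h2

theorem cls_conj (x k : G9) : cls (k⁻¹ * x * k) = cls x := by
  by_cases h : cls x = 0
  · rw [h, cls_zero]
    rw [cls_zero] at h
    calc k⁻¹ * x * k * (k⁻¹ * x * k) = k⁻¹ * (x * x) * k := by group
      _ = 1 := by rw [h]; group
  · obtain ⟨W, R, hW, hR, e⟩ := exists_w h
    have hx : x = W⁻¹ * R * W := by rw [mul_assoc, ← e]; group
    have : k⁻¹ * x * k = (W * k)⁻¹ * R * (W * k) := by
      conv_lhs => rw [hx]
      group
    rw [this]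
    exact cls_rep (cls_lt x) h hR _

/-- All elements conjugating `g` to `h`. -/
theorem transporter {g h y : G9} (hg : cls g ≠ 0) (hy : h = y⁻¹ * g * y) :
    ∃ c ∈ cen (cls g), code y = mulN (mulN (invN (wN (code g))) c) (wN (code h)) := by
  have ht : cls h = cls g := by rw [hy, cls_conj]
  have hh : cls h ≠ 0 := by rw [ht]; exact hg
  obtain ⟨Wg, C, hWg, hC, eg⟩ := exists_w hg
  obtain ⟨Wh, C', hWh, hC', eh⟩ := exists_w hh
  have e0 : C' = C := code_inj (by rw [hC, hC', ht])
  rw [e0] at eh
  have eg' : g = Wg⁻¹ * C * Wg := by rw [mul_assoc, ← eg]; group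
  have eh' : h = Wh⁻¹ * C * Wh := by rw [mul_assoc, ← eh]; group
  refine ⟨code (Wg * y * Wh⁻¹), ?_, ?_⟩
  · refine mem_cen (cls_lt g) hg hC ?_
    have h1 : Wh⁻¹ * C * Wh = y⁻¹ * (Wg⁻¹ * C * Wg) * y := by rw [← eg', ← eh', hy]
    calc C * (Wg * y * Wh⁻¹)
        = Wg * y * (y⁻¹ * (Wg⁻¹ * C * Wg) * y) * Wh⁻¹ := by group
      _ = Wg * y * (Wh⁻¹ * C * Wh) * Wh⁻¹ := by rw [h1]
      _ = Wg * y * Wh⁻¹ * C := by group
  · rw [← hWg, ← hWh, ← code_inv, ← code_mul, ← code_mul]
    congr 1
    group

/-- Two elements of the same class, up to simultaneous conjugation. -/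
theorem exists_w2 {A B : G9} (h : cls A ≠ 0) (hB : cls B = cls A) :
    ∃ W R : G9, code R = rep (cls A) ∧ W * A * W⁻¹ = R ∧ code (W * B * W⁻¹) ∈ orb (cls A) := by
  obtain ⟨W, R, hW, hR, e⟩ := exists_w h
  have hBc : cls (W * B * W⁻¹) = cls A := by
    have := cls_conj B W⁻¹
    rw [inv_inv] at this
    rw [this, hB]
  have hm : code (W * B * W⁻¹) ∈ cl (cls A) := by
    have := mem_cl (A := W * B * W⁻¹) (by rw [hBc]; exact h)
    rwa [hBc] at this
  have h1 := List.all_eq_true.1 (orb_facts ⟨cls A, cls_lt A⟩) _ hm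
  obtain ⟨c, hc, h2⟩ := List.any_eq_true.1 h1
  simp only [Bool.and_eq_true] at h2
  obtain ⟨⟨h3, h4⟩, h5⟩ := h2
  obtain ⟨y, hy, h6⟩ := List.any_eq_true.1 h5
  obtain ⟨C, hC⟩ := exists_code h3
  have h7 : R * C = C * R := code_inj (by
    rw [code_mul, code_mul, hR, hC]; exact Nat.eq_of_beq_eq_true h4)
  have h8 : y = cjN (code (W * B * W⁻¹)) c := Nat.eq_of_beq_eq_true h6
  refine ⟨C⁻¹ * W, R, hR, ?_, ?_⟩
  · calc C⁻¹ * W * A * (C⁻¹ * W)⁻¹ = C⁻¹ * (W * A) * W⁻¹ * C := by group
      _ = C⁻¹ * (R * W) * W⁻¹ * C := by rw [e]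
      _ = C⁻¹ * (R * C) := by group
      _ = C⁻¹ * (C * R) := by rw [h7]
      _ = R := by group
  · have h9 : C⁻¹ * W * B * (C⁻¹ * W)⁻¹ = C⁻¹ * (W * B * W⁻¹) * C := by group
    rw [h9, code_cj, hC, ← h8]
    exact hy

def st24 (t : ℕ) (cl cen orb : List ℕ) (g0 g3 g12 g18 g13 g14 g17 g2 g16 g1 g4 g8 g9 g10 g11 g15 g7 g5 g6 g20 g19 : ℕ) : Bool :=
  (Nat.beq (mulN (invN g6) g10) 4097 && !(Nat.beq g19 4097)) ||
    !(Nat.beq (mulN (mulN g0 g0) (mulN (mulN (mulN (mulN (mulN (mulN (mulN (mulN (mulN (mulN (mulN (mulN (mulN (mulN (mulN (mulN (mulN (mulN (mulN g8 (invN g17)) g14) (invN g1)) g15) (invN g20)) (invN g15)) g1) (invN g14)) g17) g19) (invN g8)) (invN g18)) g3) (invN g10)) g11) (invN g14)) (invN g3)) (invN g12)) (mulN g0 (mulN g0 g0)))) 4097) ||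
    Nat.beq (mulN (mulN g0 g0) (mulN g0 g0)) 4097

def st23 (t : ℕ) (cl cen orb : List ℕ) (g0 g3 g12 g18 g13 g14 g17 g2 g16 g1 g4 g8 g9 g10 g11 g15 g7 g5 g6 g20 g19 : ℕ) : Bool :=
  !(Nat.beq g11 (cjN g10 g19)) || st24 t cl cen orb g0 g3 g12 g18 g13 g14 g17 g2 g16 g1 g4 g8 g9 g10 g11 g15 g7 g5 g6 g20 g19

def st22 (t : ℕ) (cl cen orb : List ℕ) (g0 g3 g12 g18 g13 g14 g17 g2 g16 g1 g4 g8 g9 g10 g11 g15 g7 g5 g6 g20 g19 : ℕ) : Bool :=
  !(Nat.beq g19 (cjN g20 g6)) || st23 t cl cen orb g0 g3 g12 g18 g13 g14 g17 g2 g16 g1 g4 g8 g9 g10 g11 g15 g7 g5 g6 g20 g19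

def st21 (t : ℕ) (cl cen orb : List ℕ) (g0 g3 g12 g18 g13 g14 g17 g2 g16 g1 g4 g8 g9 g10 g11 g15 g7 g5 g6 g20 : ℕ) : Bool :=
  force (cjN g20 g10) fun g19 => st22 t cl cen orb g0 g3 g12 g18 g13 g14 g17 g2 g16 g1 g4 g8 g9 g10 g11 g15 g7 g5 g6 g20 g19

def st20 (t : ℕ) (cl cen orb : List ℕ) (g0 g3 g12 g18 g13 g14 g17 g2 g16 g1 g4 g8 g9 g10 g11 g15 g7 g5 g6 : ℕ) : Bool :=
  force (invN (wN g6)) fun u => force (wN g5) fun w => cen.all fun c =>
    force (mulN (mulN u c) w) fun g20 => st21 t cl cen orb g0 g3 g12 g18 g13 g14 g17 g2 g16 g1 g4 g8 g9 g10 g11 g15 g7 g5 g6 g20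

def st19 (t : ℕ) (cl cen orb : List ℕ) (g0 g3 g12 g18 g13 g14 g17 g2 g16 g1 g4 g8 g9 g10 g11 g15 g7 g5 : ℕ) : Bool :=
  force (cjN g7 g15) fun g6 => st20 t cl cen orb g0 g3 g12 g18 g13 g14 g17 g2 g16 g1 g4 g8 g9 g10 g11 g15 g7 g5 g6

def st18 (t : ℕ) (cl cen orb : List ℕ) (g0 g3 g12 g18 g13 g14 g17 g2 g16 g1 g4 g8 g9 g10 g11 g15 g7 : ℕ) : Bool :=
  force (cjN g4 g15) fun g5 => st19 t cl cen orb g0 g3 g12 g18 g13 g14 g17 g2 g16 g1 g4 g8 g9 g10 g11 g15 g7 g5

def st17 (t : ℕ) (cl cen orb : List ℕ) (g0 g3 g12 g18 g13 g14 g17 g2 g16 g1 g4 g8 g9 g10 g11 g15 : ℕ) : Bool :=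
  force (ciN g8 g1) fun g7 => st18 t cl cen orb g0 g3 g12 g18 g13 g14 g17 g2 g16 g1 g4 g8 g9 g10 g11 g15 g7

def st16 (t : ℕ) (cl cen orb : List ℕ) (g0 g3 g12 g18 g13 g14 g17 g2 g16 g1 g4 g8 g9 g10 g11 g15 : ℕ) : Bool :=
  !(Nat.beq g16 (cjN g15 g11)) || st17 t cl cen orb g0 g3 g12 g18 g13 g14 g17 g2 g16 g1 g4 g8 g9 g10 g11 g15

def st15 (t : ℕ) (cl cen orb : List ℕ) (g0 g3 g12 g18 g13 g14 g17 g2 g16 g1 g4 g8 g9 g10 g11 : ℕ) : Bool :=
  force (ciN g14 g10) fun g15 => st16 t cl cen orb g0 g3 g12 g18 g13 g14 g17 g2 g16 g1 g4 g8 g9 g10 g11 g15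

def st14 (t : ℕ) (cl cen orb : List ℕ) (g0 g3 g12 g18 g13 g14 g17 g2 g16 g1 g4 g8 g9 g10 : ℕ) : Bool :=
  force (cjN g12 g8) fun g11 => st15 t cl cen orb g0 g3 g12 g18 g13 g14 g17 g2 g16 g1 g4 g8 g9 g10 g11

def st13 (t : ℕ) (cl cen orb : List ℕ) (g0 g3 g12 g18 g13 g14 g17 g2 g16 g1 g4 g8 g9 : ℕ) : Bool :=
  force (cjN g9 g17) fun g10 => st14 t cl cen orb g0 g3 g12 g18 g13 g14 g17 g2 g16 g1 g4 g8 g9 g10

def st12 (t : ℕ) (cl cen orb : List ℕ) (g0 g3 g12 g18 g13 g14 g17 g2 g16 g1 g4 g8 : ℕ) : Bool :=
  force (ciN g8 g14) fun g9 => st13 t cl cen orb g0 g3 g12 g18 g13 g14 g17 g2 g16 g1 g4 g8 g9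

def st11 (t : ℕ) (cl cen orb : List ℕ) (g0 g3 g12 g18 g13 g14 g17 g2 g16 g1 g4 g8 : ℕ) : Bool :=
  !(Nat.beq (clN g8) t) || st12 t cl cen orb g0 g3 g12 g18 g13 g14 g17 g2 g16 g1 g4 g8

def st10 (t : ℕ) (cl cen orb : List ℕ) (g0 g3 g12 g18 g13 g14 g17 g2 g16 g1 g4 : ℕ) : Bool :=
  force (invN (wN g0)) fun u => force (wN g1) fun w => cen.all fun c =>
    force (mulN (mulN u c) w) fun g8 => st11 t cl cen orb g0 g3 g12 g18 g13 g14 g17 g2 g16 g1 g4 g8

def st9 (t : ℕ) (cl cen orb : List ℕ) (g0 g3 g12 g18 g13 g14 g17 g2 g16 g1 : ℕ) : Bool :=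
  force (ciN g3 g1) fun g4 => st10 t cl cen orb g0 g3 g12 g18 g13 g14 g17 g2 g16 g1 g4

def st8 (t : ℕ) (cl cen orb : List ℕ) (g0 g3 g12 g18 g13 g14 g17 g2 g16 : ℕ) : Bool :=
  force (cjN g2 g17) fun g1 => st9 t cl cen orb g0 g3 g12 g18 g13 g14 g17 g2 g16 g1

def st7 (t : ℕ) (cl cen orb : List ℕ) (g0 g3 g12 g18 g13 g14 g17 g2 : ℕ) : Bool :=
  force (cjN g17 g14) fun g16 => st8 t cl cen orb g0 g3 g12 g18 g13 g14 g17 g2 g16

def st6 (t : ℕ) (cl cen orb : List ℕ) (g0 g3 g12 g18 g13 g14 g17 : ℕ) : Bool :=
  force (ciN g3 g14) fun g2 => st7 t cl cen orb g0 g3 g12 g18 g13 g14 g17 g2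

def st5 (t : ℕ) (cl cen orb : List ℕ) (g0 g3 g12 g18 g13 g14 : ℕ) : Bool :=
  force (cjN g18 g3) fun g17 => st6 t cl cen orb g0 g3 g12 g18 g13 g14 g17

def st4 (t : ℕ) (cl cen orb : List ℕ) (g0 g3 g12 g18 g13 : ℕ) : Bool :=
  force (cjN g13 g3) fun g14 => st5 t cl cen orb g0 g3 g12 g18 g13 g14

def st3 (t : ℕ) (cl cen orb : List ℕ) (g0 g3 g12 g18 : ℕ) : Bool :=
  force (ciN g12 g18) fun g13 => st4 t cl cen orb g0 g3 g12 g18 g13

def st2 (t : ℕ) (cl cen orb : List ℕ) (g0 g3 g12 : ℕ) : Bool :=
  force (cjN g0 g12) fun g18 => st3 t cl cen orb g0 g3 g12 g18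

def st1 (t : ℕ) (cl cen orb : List ℕ) (g0 g3 : ℕ) : Bool :=
  cl.all fun g12 => st2 t cl cen orb g0 g3 g12

def st0 (t : ℕ) (cl cen orb : List ℕ) (g0 : ℕ) : Bool :=
  orb.all fun g3 => st1 t cl cen orb g0 g3

def chk (t : ℕ) : Bool := force (rep t) fun g0 => st0 t (cl t) (cen t) (orb t) g0

theorem check1 : chk 1 = true := by decide +kernel

theorem check2 : chk 2 = true := by decide +kernel

theorem check3 : chk 3 = true := by decide +kernel

theorem check4 : chk 4 = true := by decide +kernel

theorem check5 : chk 5 = true := by decide +kernel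

theorem check6 : chk 6 = true := by decide +kernel

theorem check7 : chk 7 = true := by decide +kernel

theorem check8 : chk 8 = true := by decide +kernel

theorem check9 : chk 9 = true := by decide +kernel

theorem check10 : chk 10 = true := by decide +kernel

theorem check11 : chk 11 = true := by decide +kernel

theorem check : ∀ t : ℕ, t < 12 → t ≠ 0 → chk t = true := by
  intro t ht h0
  interval_cases t
  · exact absurd rfl h0
  · exact check1
  · exact check2
  · exact check3
  · exact check4
  · exact check5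
  · exact check6
  · exact check7
  · exact check8
  · exact check9
  · exact check10
  · exact check11

end Vale.Agent.P258.R2.H893.Nine
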