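import Vale.Agent.P258.R2.H394.Spec2
import Vale.Agent.P258.H331.Main

set_option linter.all false

/-!
The double cover of order `240` of `S_5` in which the transpositions lift to involutions, with a
code for each element, in which the kernel computes products quickly, and the search through the
homomorphisms of the first pattern for which the meridian of `K` is odd.
-/

namespace Vale.Agent.P258.R2.H893.D5

open Second

/-- matrices of determinant `1` (`o = false`) or `2` (`o = true`) -/
structure TG where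
  o : Bool
  a : ZMod 5
  b : ZMod 5
  c : ZMod 5
  d : ZMod 5
  h : a * d - b * c = if o then 2 else 1
deriving DecidableEq

namespace TG

def kf (x y : Bool) : ZMod 5 := if x && y then 2 else 1

theorem ext' {x y : TG} (ho : x.o = y.o) (ha : x.a = y.a) (hb : x.b = y.b) (hc : x.c = y.c)
    (hd : x.d = y.d) : x = y := by
  cases x; cases y; simp_all

instance : Mul TG := ⟨fun x y => ⟨xor x.o y.o, kf x.o y.o * (x.a * y.a + x.b * y.c),
  kf x.o y.o * (x.a * y.b + x.b * y.d), kf x.o y.o * (x.c * y.a + x.d * y.c),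
  kf x.o y.o * (x.c * y.b + x.d * y.d), by
    have h1 := x.h
    have h2 := y.h
    have e : kf x.o y.o * (x.a * y.a + x.b * y.c) * (kf x.o y.o * (x.c * y.b + x.d * y.d)) -
        kf x.o y.o * (x.a * y.b + x.b * y.d) * (kf x.o y.o * (x.c * y.a + x.d * y.c)) =
        kf x.o y.o ^ 2 * ((x.a * x.d - x.b * x.c) * (y.a * y.d - y.b * y.c)) := by ring
    rw [e, h1, h2]
    cases x.o <;> cases y.o <;> decide⟩⟩

instance : One TG := ⟨⟨false, 1, 0, 0, 1, by decide⟩⟩

instance : Inv TG := ⟨fun x => ⟨x.o, (if x.o then -1 else 1) * x.d, -(if x.o then -1 else 1) * x.b,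
  -(if x.o then -1 else 1) * x.c, (if x.o then -1 else 1) * x.a, by
    have h1 := x.h
    have e : (if x.o then -1 else 1) * x.d * ((if x.o then -1 else 1) * x.a) -
      -(if x.o then -1 else 1) * x.b * (-(if x.o then -1 else 1) * x.c) =
      (if x.o then -1 else 1 : ZMod 5) ^ 2 * (x.a * x.d - x.b * x.c) := by ring
    rw [e, h1]
    cases x.o <;> decide⟩⟩

theorem mul_o (x y : TG) : (x * y).o = xor x.o y.o := rfl
theorem mul_a (x y : TG) : (x * y).a = kf x.o y.o * (x.a * y.a + x.b * y.c) := rfl
theorem mul_b (x y : TG) : (x * y).b = kf x.o y.o * (x.a * y.b + x.b * y.d) := rfl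
theorem mul_c (x y : TG) : (x * y).c = kf x.o y.o * (x.c * y.a + x.d * y.c) := rfl
theorem mul_d (x y : TG) : (x * y).d = kf x.o y.o * (x.c * y.b + x.d * y.d) := rfl

theorem five : (5 : ZMod 5) = 0 := by decide

instance : Group TG :=
  Group.ofLeftAxioms
    (fun x y z => by
      apply ext' <;> simp only [mul_o, mul_a, mul_b, mul_c, mul_d]
      · cases x.o <;> cases y.o <;> cases z.o <;> rfl
      all_goals
        cases x.o <;> cases y.o <;> cases z.o <;> simp [kf] <;> ring)
    (fun x => by
      apply ext'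
      · show xor false x.o = x.o
        simp
      all_goals
        simp only [mul_a, mul_b, mul_c, mul_d]
        show kf false x.o * _ = _
        simp [kf, show (1 : TG).a = 1 from rfl, show (1 : TG).b = 0 from rfl,
          show (1 : TG).c = 0 from rfl, show (1 : TG).d = 1 from rfl])
    (fun x => by
      have h1 := x.h
      have ia : (x⁻¹).a = (if x.o then -1 else 1) * x.d := rfl
      have ib : (x⁻¹).b = -(if x.o then -1 else 1) * x.b := rfl
      have ic : (x⁻¹).c = -(if x.o then -1 else 1) * x.c := rfl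
      have id' : (x⁻¹).d = (if x.o then -1 else 1) * x.a := rfl
      have io : (x⁻¹).o = x.o := rfl
      apply ext'
      · rw [mul_o, io]
        cases x.o <;> rfl
      all_goals
        simp only [mul_a, mul_b, mul_c, mul_d, ia, ib, ic, id', io,
          show (1 : TG).a = 1 from rfl, show (1 : TG).b = 0 from rfl,
          show (1 : TG).c = 0 from rfl, show (1 : TG).d = 1 from rfl]
        cases hx : x.o
        · rw [hx] at h1
          simp only [kf, Bool.and_self, Bool.false_eq_true, if_false, if_true] at h1 ⊢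
          first | linear_combination h1 | ring
        · rw [hx] at h1
          simp only [kf, Bool.and_self, Bool.false_eq_true, if_false, if_true] at h1 ⊢
          first | linear_combination (-2) * h1 + (-1 : ZMod 5) * five | ring)


end TG

/-- The parity. -/
def eps : TG →* ℤˣ where
  toFun x := if x.o then -1 else 1
  map_one' := rfl
  map_mul' x y := by
    show (if xor x.o y.o then (-1 : ℤˣ) else 1) = (if x.o then -1 else 1) * (if y.o then -1 else 1)
    cases x.o <;> cases y.o <;> decide

/-- The number with the given octal digits. -/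
def cd (o a b c d : ℕ) : ℕ :=
  Nat.add (Nat.add (Nat.add a (Nat.mul 8 b)) (Nat.add (Nat.mul 64 c) (Nat.mul 512 d)))
    (Nat.mul 4096 o)

def kN (p q : ℕ) : ℕ := Nat.add 1 (Nat.land p q)

def dt (k a b c d : ℕ) : ℕ := Nat.mod (Nat.mul k (Nat.add (Nat.mul a b) (Nat.mul c d))) 5

def mulA (k o a b c d e f g h : ℕ) : ℕ :=
  cd o (dt k a e b g) (dt k a f b h) (dt k c e d g) (dt k c f d h)

def mulN (x y : ℕ) : ℕ :=
  mulA (kN (Nat.shiftRight x 12) (Nat.shiftRight y 12))
    (Nat.xor (Nat.shiftRight x 12) (Nat.shiftRight y 12))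
    (Nat.land x 7) (Nat.land (Nat.shiftRight x 3) 7) (Nat.land (Nat.shiftRight x 6) 7)
    (Nat.land (Nat.shiftRight x 9) 7) (Nat.land y 7) (Nat.land (Nat.shiftRight y 3) 7)
    (Nat.land (Nat.shiftRight y 6) 7) (Nat.land (Nat.shiftRight y 9) 7)

def sN (o : ℕ) : ℕ := Nat.add 1 (Nat.mul 3 o)

def invN (x : ℕ) : ℕ :=
  cd (Nat.shiftRight x 12)
    (Nat.mod (Nat.mul (sN (Nat.shiftRight x 12)) (Nat.land (Nat.shiftRight x 9) 7)) 5)
    (Nat.mod (Nat.mul (sN (Nat.shiftRight x 12)) (Nat.sub 5 (Nat.land (Nat.shiftRight x 3) 7))) 5)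
    (Nat.mod (Nat.mul (sN (Nat.shiftRight x 12)) (Nat.sub 5 (Nat.land (Nat.shiftRight x 6) 7))) 5)
    (Nat.mod (Nat.mul (sN (Nat.shiftRight x 12)) (Nat.land x 7)) 5)

def cjN (x k : ℕ) : ℕ := mulN (mulN (invN k) x) k

def ciN (x k : ℕ) : ℕ := mulN (mulN k x) (invN k)

/-- A number in `0, ..., 1249` for each element. -/
def keyN (x : ℕ) : ℕ :=
  Nat.add (Nat.add (Nat.add (Nat.land x 7) (Nat.mul 5 (Nat.land (Nat.shiftRight x 3) 7)))
    (Nat.add (Nat.mul 25 (Nat.land (Nat.shiftRight x 6) 7))
      (Nat.mul 125 (Nat.land (Nat.shiftRight x 9) 7)))) (Nat.mul 625 (Nat.shiftRight x 12))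

/-- The code of an element conjugating the given one to the representative of its class. -/
def wN (x : ℕ) : ℕ :=
  Nat.land (Nat.shiftRight
    0x6200000000000000000000020100000000000000000000031400930000000000000000000002e3000000000000000000000000020100000281000000000000000000000000029a0000000000000000000000000090000002a4000000000000000000000000000000600000000002810000000004430000000000000000000000000000020100000000026000000000000000640000000000000000000000000000000002210000000000000201000000000000009400000000000002210000000000000000006300000000000000000253000000000000000004430000000000000000009100000000000000000322000000000000000000000000006100000000024a0000000000000000000000000000040b00000000020100000000029a00000000000000000000006300000000000000000000020100000000000000000000029000000000000000000000009002d800000000000000000000000000000000006000000000000002a400000000000002010000000000000091000000000000031b0000000000000000000000000201000000000000000000000000021900000219000000000000000000000000009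20000021900000000000000000064000000000000000002d200000000000000000483000000000000000000930000000000000000025c00000000000000000064000000000000000000000000024100000000000000000000000004230000020100000000000000000000000002d20000000000000062000000000000020100000000000002d80000000000000000000000000000000000900000000000000290000000000000000000000060024100000000000000000000020100000000000000000000009400000000000000000000025300000000020100000000000000000000000000000211000000000211000000000093000000000000000000000000000002110000000000000000006100000000000000000241000000000000000004490000000000000000009200000000000000000314000000000063000000000000020100000000000000000000000000000000025c0000000000000092000000000000028b000000000201000000000000000000000000000002900000000002d2000000000000000000000000000000900000000002cc00000000000000000000000000600000026000000000000000000000000004600000020100000000000000000000000003080000000000000000000000610000000000000000000002090201000000000000000000000091000000000000000000000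20900000000000000000062000000000000000002c10000000000000000048c000000000000000000940000000000000000024a000000000000000000000000000000000000000000000000025304030403031b0201000000000000000000000000000000000000000000000000000000000000000000000000000000000000000000000000000000930091009400920201000000000000000000000064006300620061020100000000000000000000000000000000000000000000000000000000000000000000000000000000000000000000000000000201020102010201020100000000000000000000000000000000000000000000000000000000000000000000000000000000000000000000000000000000000000000000000000000000000000000000000000000000000000000000020100000000000000000000020100000000000000000000020100000000000000000000020102010000000000000000000000000201000000000000000000000000020100000201000000000000000000000000020100000201000000000000000000000000000002010000000002010000000000000000000000000000020100000000020100000000020100000000000000000000000000000000020100000000000002010000000000000201000000000000020100000000000002010000000000000000020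100000000000000000201000000000000000002010000000000000000020100000000000000000201000000000000000002010000000000000000000000000000020100000000020100000000000000000000000000000201000000000201000000000000000000000201000000000000000000000201020100000000000000000000020100000000000000000000020100000000000002010000000000000201000000000000000000000000000000000201000000000000020100000000000002010000000000000000000000000201000002010000000000000000000000000201000002010000000000000000000000000201000000000000000002010000000000000000020100000000000000000201000000000000000002010000000000000000020100000000000000000000020100000201000000000000000000000000020100000000000000000000000002010000020100000000000002010000000000000000000000000000000002010000000000000201000000000000020100000000000002010000000000000000000002010000000000000000000002010000000000000000000002010201000000000000000000000201000000000000000000000000000002010000000002010000000002010000000000000000000000000000020100000000020100000000000000000201000000000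000000002010000000000000000020100000000000000000201000000000000000002010000000000000000000002010000000000000201000000000000020100000000000000000000000000000000020100000000000002010000000002010000000000000000000000000000020100000000020100000000020100000000000000000000000000000201000002010000000000000000000000000201000000000000000000000000020100000201000000000000000000000000020100000000000000000000020102010000000000000000000002010000000000000000000002010000000000000000000002010000000000000000020100000000000000000201000000000000000002010000000000000000020100000000000000000201000000000000000000000000000000000000000000000000000000000000000002010201020102010201000000000000000000000000000000000000000002010201020102010201000000000000000000000000000000000000000000000000000000000000000000000000000000000000000000000000000002010201020102010201000000000000000000000000000000000000000002010201020102010201000000000000000000000000000000000000000000000000000000000000000000000000000000000000000000000000000000000000000000000000000000000000000000000000000000000000000000000000000000000000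
    (Nat.mul 16 (keyN x))) 65535

/-- The number of the class: `0` for the even elements and those with `x ^ 4 = 1`. -/
def clN (x : ℕ) : ℕ :=
  Nat.land (Nat.shiftRight
    0x100000000000430000020000000030000001000000402000000040010030000000000200030000000040000000100020000200002000020000200002000000400100000003000002000001000000000004000003200000000300040000000100020000000000000301000000402000020000200002000020000200001000000400000020000000030004000000010000000020003000002100000000000400000300000000002004001000000030000300003000030000300003004000000000000100020003000000000020040000000100300000010400000020000000030000020000010000004000003000030000300003000030000300000000000043210000000000000000000000000043210000004321000000000000000000000000004321000000000000000000000000000000000000000000000000000000000000000000000000000000000000000000000000000000000000000000000000000000000000000000000000000000000000000000000000000000000000000000000000000000000000000000000000000000000000000000000000000000000000000000000000000000000000000000000000000000000000000000000000000000000000000000000000000000000000000000000000000000000000000000000000000000000000000000000000000000000000000000000000000000000000000000000000000000000000000000000000000000000000000000000000000000000000000000000000000000000000000000000000000000000000000000000000000000000000000000000000000000000000000000000000000000000000000000000000000000000000000000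
    (Nat.mul 4 (keyN x))) 15

/-- The codes of the representatives of the classes. -/
def rep (t : ℕ) : ℕ := ([0, 4185, 4186, 4187, 4188] : List ℕ).getD t 0

/-- The codes of the elements of the class `t`. -/
def cl (t : ℕ) : List ℕ :=
  ([[],
    [4185, 4257, 4297, 4369, 4696, 4768, 4808, 4880, 5196, 5276, 5332, 5412, 5715, 5771, 5859,
    5915, 6218, 6298, 6354, 6434],
    [4186, 4258, 4298, 4370, 4705, 4753, 4825, 4873, 5208, 5280, 5320, 5392, 5636, 5644, 5652,
    5660, 5668, 5700, 5764, 5828, 5892, 6147, 6155, 6163, 6171, 6179, 6211, 6275, 6339, 6403],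
    [4187, 4259, 4299, 4371, 4610, 4618, 4626, 4634, 4642, 4674, 4738, 4802, 4866, 5121, 5129,
    5137, 5145, 5153, 5185, 5249, 5313, 5377, 5720, 5792, 5832, 5904, 6244, 6292, 6364, 6412],
    [4188, 4260, 4300, 4372, 4683, 4763, 4819, 4899, 5202, 5258, 5346, 5402, 5705, 5785, 5841,
    5921, 6232, 6304, 6344, 6416]] : List (List ℕ)).getD t []

/-- The codes of the elements commuting with the representative of the class `t`. -/
def cen (t : ℕ) : List ℕ :=
  ([[],
    [513, 651, 1164, 1761, 2052, 2274, 4185, 4372, 4836, 4880, 6232, 6281],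
    [513, 788, 2052, 2137, 4186, 4371, 5392, 5720],
    [513, 604, 2052, 2321, 4187, 4370, 5208, 5904],
    [513, 739, 1252, 1673, 2052, 2186, 4188, 4369, 4696, 4748, 6369, 6416]] : List (List ℕ)).getD t []

theorem dt_val : ∀ (x y : Bool) (a b c d : ZMod 5), (TG.kf x y * (a * b + c * d)).val =
    dt (kN x.toNat y.toNat) a.val b.val c.val d.val := by
  decide +kernel

theorem inv_val : ∀ (x : Bool) (a : ZMod 5),
    (((if x then -1 else 1) * a : ZMod 5)).val = Nat.mod (Nat.mul (sN x.toNat) a.val) 5 ∧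
    ((-(if x then -1 else 1) * a : ZMod 5)).val =
      Nat.mod (Nat.mul (sN x.toNat) (Nat.sub 5 a.val)) 5 := by
  decide +kernel

theorem cd_dg : ∀ (o : Bool) (a b c d : ZMod 5),
    Nat.shiftRight (cd o.toNat a.val b.val c.val d.val) 12 = o.toNat ∧
    Nat.land (cd o.toNat a.val b.val c.val d.val) 7 = a.val ∧
    Nat.land (Nat.shiftRight (cd o.toNat a.val b.val c.val d.val) 3) 7 = b.val ∧
    Nat.land (Nat.shiftRight (cd o.toNat a.val b.val c.val d.val) 6) 7 = c.val ∧
    Nat.land (Nat.shiftRight (cd o.toNat a.val b.val c.val d.val) 9) 7 = d.val := by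
  decide +kernel

theorem xor_nat (x y : Bool) : (xor x y).toNat = Nat.xor x.toNat y.toNat := by
  cases x <;> cases y <;> rfl

/-- The code of an element. -/
def code (A : TG) : ℕ := cd A.o.toNat A.a.val A.b.val A.c.val A.d.val

theorem code_mul (A B : TG) : code (A * B) = mulN (code A) (code B) := by
  obtain ⟨h0, h1, h2, h3, h4⟩ := cd_dg A.o A.a A.b A.c A.d
  obtain ⟨k0, k1, k2, k3, k4⟩ := cd_dg B.o B.a B.b B.c B.d
  unfold mulN code
  rw [h0, h1, h2, h3, h4, k0, k1, k2, k3, k4]
  rw [TG.mul_o, TG.mul_a, TG.mul_b, TG.mul_c, TG.mul_d, xor_nat, dt_val, dt_val, dt_val, dt_val]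
  rfl

theorem code_inv (A : TG) : code A⁻¹ = invN (code A) := by
  obtain ⟨h0, h1, h2, h3, h4⟩ := cd_dg A.o A.a A.b A.c A.d
  unfold invN
  have e : code A = cd A.o.toNat A.a.val A.b.val A.c.val A.d.val := rfl
  rw [e, h0, h1, h2, h3, h4, ← (inv_val A.o A.d).1, ← (inv_val A.o A.b).2, ← (inv_val A.o A.c).2,
    ← (inv_val A.o A.a).1]
  rfl

theorem code_one : code 1 = 513 := by decide +kernel

theorem toNat_inj {x y : Bool} (h : x.toNat = y.toNat) : x = y := by
  cases x <;> cases y <;> simp_all

theorem code_inj {A B : TG} (h : code A = code B) : A = B := by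
  obtain ⟨h0, h1, h2, h3, h4⟩ := cd_dg A.o A.a A.b A.c A.d
  obtain ⟨k0, k1, k2, k3, k4⟩ := cd_dg B.o B.a B.b B.c B.d
  unfold code at h
  rw [h] at h0 h1 h2 h3 h4
  exact TG.ext' (toNat_inj (h0.symm.trans k0)) (ZMod.val_injective 5 (h1.symm.trans k1))
    (ZMod.val_injective 5 (h2.symm.trans k2)) (ZMod.val_injective 5 (h3.symm.trans k3))
    (ZMod.val_injective 5 (h4.symm.trans k4))

theorem code_cj (x k : TG) : code (k⁻¹ * x * k) = cjN (code x) (code k) := by
  rw [code_mul, code_mul, code_inv]; rfl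

theorem code_ci (x k : TG) : code (k * x * k⁻¹) = ciN (code x) (code k) := by
  rw [code_mul, code_mul, code_inv]; rfl

def dv (o a b c d : ℕ) : Bool :=
  Nat.beq (Nat.mod (Nat.add (Nat.mul a d) (Nat.mul (Nat.sub 5 b) c)) 5) (Nat.add 1 o)

theorem det_iff : ∀ (o : Bool) (a b c d : ZMod 5), (a * d - b * c = if o then 2 else 1) ↔
    dv o.toNat a.val b.val c.val d.val = true := by
  decide +kernel

theorem det_eq (A : TG) : dv A.o.toNat A.a.val A.b.val A.c.val A.d.val = true :=
  (det_iff _ _ _ _ _).1 A.h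

/-- The number `x` is a code. -/
def isCode (x : ℕ) : Bool :=
  Nat.blt (Nat.land x 7) 5 && Nat.blt (Nat.land (Nat.shiftRight x 3) 7) 5 &&
    Nat.blt (Nat.land (Nat.shiftRight x 6) 7) 5 && Nat.blt (Nat.land (Nat.shiftRight x 9) 7) 5 &&
    dv (Nat.beq (Nat.shiftRight x 12) 1).toNat (Nat.land x 7) (Nat.land (Nat.shiftRight x 3) 7)
      (Nat.land (Nat.shiftRight x 6) 7) (Nat.land (Nat.shiftRight x 9) 7) &&
    Nat.beq (cd (Nat.beq (Nat.shiftRight x 12) 1).toNat (Nat.land x 7)
      (Nat.land (Nat.shiftRight x 3) 7) (Nat.land (Nat.shiftRight x 6) 7)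
      (Nat.land (Nat.shiftRight x 9) 7)) x

theorem exists_code {x : ℕ} (h : isCode x = true) : ∃ A : TG, code A = x := by
  unfold isCode at h
  simp only [Bool.and_eq_true] at h
  obtain ⟨⟨⟨⟨⟨h1, h2⟩, h3⟩, h4⟩, h5⟩, h6⟩ := h
  have l1 : Nat.land x 7 < 5 := by simpa using h1
  have l2 : Nat.land (Nat.shiftRight x 3) 7 < 5 := by simpa using h2
  have l3 : Nat.land (Nat.shiftRight x 6) 7 < 5 := by simpa using h3
  have l4 : Nat.land (Nat.shiftRight x 9) 7 < 5 := by simpa using h4
  let a : ZMod 5 := (⟨_, l1⟩ : Fin 5)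
  let b : ZMod 5 := (⟨_, l2⟩ : Fin 5)
  let c : ZMod 5 := (⟨_, l3⟩ : Fin 5)
  let d : ZMod 5 := (⟨_, l4⟩ : Fin 5)
  exact ⟨⟨Nat.beq (Nat.shiftRight x 12) 1, a, b, c, d, (det_iff _ a b c d).2 h5⟩,
    Nat.eq_of_beq_eq_true h6⟩

/-- Facts about all elements, checked by enumeration. -/
theorem all_facts' : ∀ (o : Bool) (a b c d : ZMod 5),
    dv o.toNat a.val b.val c.val d.val = true →
    (clN (cd o.toNat a.val b.val c.val d.val) < 5) ∧
    (clN (cd o.toNat a.val b.val c.val d.val) = 0 ↔ (o = false ∨
      mulN (mulN (cd o.toNat a.val b.val c.val d.val) (cd o.toNat a.val b.val c.val d.val))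
        (mulN (cd o.toNat a.val b.val c.val d.val) (cd o.toNat a.val b.val c.val d.val)) = 513)) ∧
    (cd o.toNat a.val b.val c.val d.val ∈ cl (clN (cd o.toNat a.val b.val c.val d.val)) ∨
      clN (cd o.toNat a.val b.val c.val d.val) = 0) ∧
    (clN (cd o.toNat a.val b.val c.val d.val) ≠ 0 →
      isCode (wN (cd o.toNat a.val b.val c.val d.val)) = true ∧
      mulN (wN (cd o.toNat a.val b.val c.val d.val)) (cd o.toNat a.val b.val c.val d.val) =
        mulN (rep (clN (cd o.toNat a.val b.val c.val d.val)))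
          (wN (cd o.toNat a.val b.val c.val d.val))) := by
  decide +kernel

theorem all_facts (A : TG) :
    (clN (code A) < 5) ∧
    (clN (code A) = 0 ↔ (A.o = false ∨ mulN (mulN (code A) (code A)) (mulN (code A) (code A)) = 513)) ∧
    (code A ∈ cl (clN (code A)) ∨ clN (code A) = 0) ∧
    (clN (code A) ≠ 0 → isCode (wN (code A)) = true ∧
      mulN (wN (code A)) (code A) = mulN (rep (clN (code A))) (wN (code A))) :=
  all_facts' _ _ _ _ _ (det_eq A)

theorem rep_facts' : ∀ t : Fin 5, t.val ≠ 0 → isCode (rep t.val) = true ∧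
    ∀ (o : Bool) (a b c d : ZMod 5), dv o.toNat a.val b.val c.val d.val = true →
      clN (cjN (rep t.val) (cd o.toNat a.val b.val c.val d.val)) = t.val ∧
      (mulN (rep t.val) (cd o.toNat a.val b.val c.val d.val) =
        mulN (cd o.toNat a.val b.val c.val d.val) (rep t.val) →
        cd o.toNat a.val b.val c.val d.val ∈ cen t.val) := by
  decide +kernel

theorem rep_facts {t : ℕ} (ht : t < 5) (h0 : t ≠ 0) : isCode (rep t) = true ∧
    ∀ A : TG, clN (cjN (rep t) (code A)) = t ∧
      (mulN (rep t) (code A) = mulN (code A) (rep t) → code A ∈ cen t) :=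
  ⟨(rep_facts' ⟨t, ht⟩ h0).1, fun A => (rep_facts' ⟨t, ht⟩ h0).2 _ _ _ _ _ (det_eq A)⟩

/-- The number of the class of an element. -/
def cls (A : TG) : ℕ := clN (code A)

theorem cls_lt (A : TG) : cls A < 5 := (all_facts A).1

theorem eps_iff (A : TG) : eps A = 1 ↔ A.o = false := by
  show (if A.o then (-1 : ℤˣ) else 1) = 1 ↔ _
  cases A.o <;> decide

theorem cls_zero (A : TG) : cls A = 0 ↔ (eps A = 1 ∨ A * A * (A * A) = 1) := by
  have h := (all_facts A).2.1
  rw [eps_iff]
  constructor
  · intro h0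
    rcases h.1 h0 with h1 | h1
    · exact Or.inl h1
    · right
      apply code_inj
      rw [code_one]
      simp only [code_mul]
      exact h1
  · rintro (h1 | h1)
    · exact h.2 (Or.inl h1)
    · apply h.2
      right
      have := congrArg code h1
      rw [code_one] at this
      simpa only [code_mul] using this

theorem mem_cl {A : TG} (h : cls A ≠ 0) : code A ∈ cl (cls A) :=
  ((all_facts A).2.2.1).resolve_right h

theorem exists_w {A : TG} (h : cls A ≠ 0) :
    ∃ W R : TG, code W = wN (code A) ∧ code R = rep (cls A) ∧ W * A = R * W := by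
  obtain ⟨h1, h2⟩ := (all_facts A).2.2.2 h
  obtain ⟨W, hW⟩ := exists_code h1
  obtain ⟨R, hR⟩ := exists_code (rep_facts (cls_lt A) h).1
  refine ⟨W, R, hW, hR, code_inj ?_⟩
  rw [code_mul, code_mul, hW, hR]
  exact h2

theorem cls_rep {t : ℕ} (ht : t < 5) (h0 : t ≠ 0) {R : TG} (hR : code R = rep t) (k : TG) :
    cls (k⁻¹ * R * k) = t := by
  unfold cls
  rw [code_cj, hR]
  exact ((rep_facts ht h0).2 k).1

theorem mem_cen {t : ℕ} (ht : t < 5) (h0 : t ≠ 0) {R : TG} (hR : code R = rep t) {A : TG}
    (h : R * A = A * R) : code A ∈ cen t := by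
  have h2 := congrArg code h
  rw [code_mul, code_mul, hR] at h2
  exact ((rep_facts ht h0).2 A).2 h2

theorem cls_conj (x k : TG) : cls (k⁻¹ * x * k) = cls x := by
  by_cases h : cls x = 0
  · rw [h, cls_zero]
    rw [cls_zero] at h
    rcases h with h | h
    · left
      rw [map_mul, map_mul, h, mul_one, map_inv, inv_mul_cancel]
    · right
      calc k⁻¹ * x * k * (k⁻¹ * x * k) * (k⁻¹ * x * k * (k⁻¹ * x * k)) =
          k⁻¹ * (x * x * (x * x)) * k := by group
        _ = 1 := by rw [h]; group
  · obtain ⟨W, R, hW, hR, e⟩ := exists_w h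
    have hx : x = W⁻¹ * R * W := by rw [mul_assoc, ← e]; group
    have : k⁻¹ * x * k = (W * k)⁻¹ * R * (W * k) := by
      conv_lhs => rw [hx]
      group
    rw [this]
    exact cls_rep (cls_lt x) h hR _

/-- All elements conjugating `g` to `h`. -/
theorem transporter {g h y : TG} (hg : cls g ≠ 0) (hy : h = y⁻¹ * g * y) :
    ∃ c ∈ cen (cls g), code y = mulN (mulN (invN (wN (code g))) c) (wN (code h)) := by
  have ht : cls h = cls g := by rw [hy, cls_conj]
  have hh : cls h ≠ 0 := by rw [ht]; exact hg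
  obtain ⟨Wg, C, hWg, hC, eg⟩ := exists_w hg
  obtain ⟨Wh, C', hWh, hC', eh⟩ := exists_w hh
  have e0 : C' = C := code_inj (by rw [hC, hC', ht])
  rw [e0] at eh
  have eg' : g = Wg⁻¹ * C * Wg := by rw [mul_assoc, ← eg]; group
  have eh' : h = Wh⁻¹ * C * Wh := by rw [mul_assoc, ← eh]; group
  refine ⟨code (Wg * y * Wh⁻¹), ?_, ?_⟩
  · refine mem_cen (cls_lt g) hg hC ?_
    have h1 : Wh⁻¹ * C * Wh = y⁻¹ * (Wg⁻¹ * C * Wg) * y := by rw [← eg', ← eh', hy]
    calc C * (Wg * y * Wh⁻¹)
        = Wg * y * (y⁻¹ * (Wg⁻¹ * C * Wg) * y) * Wh⁻¹ := by group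
      _ = Wg * y * (Wh⁻¹ * C * Wh) * Wh⁻¹ := by rw [h1]
      _ = Wg * y * Wh⁻¹ * C := by group
  · rw [← hWg, ← hWh, ← code_inv, ← code_mul, ← code_mul]
    congr 1
    group

def st23 (cl cen : List ℕ) (g0 g3 g12 g18 g13 g14 g17 g2 g16 g1 g4 g8 g9 g10 g11 g15 g7 g5 g6 g20 g19 : ℕ) : Bool :=
  !(Nat.beq (mulN (mulN g0 g0) (mulN (mulN (mulN (mulN (mulN (mulN (mulN (mulN (mulN (mulN (mulN (mulN (mulN (mulN (mulN (mulN (mulN (mulN (mulN g8 (invN g17)) g14) (invN g1)) g15) (invN g20)) (invN g15)) g1) (invN g14)) g17) g19) (invN g8)) (invN g18)) g3) (invN g10)) g11) (invN g14)) (invN g3)) (invN g12)) (mulN g0 (mulN g0 g0)))) 513)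

def st22 (cl cen : List ℕ) (g0 g3 g12 g18 g13 g14 g17 g2 g16 g1 g4 g8 g9 g10 g11 g15 g7 g5 g6 g20 g19 : ℕ) : Bool :=
  !(Nat.beq g11 (cjN g10 g19)) || st23 cl cen g0 g3 g12 g18 g13 g14 g17 g2 g16 g1 g4 g8 g9 g10 g11 g15 g7 g5 g6 g20 g19

def st21 (cl cen : List ℕ) (g0 g3 g12 g18 g13 g14 g17 g2 g16 g1 g4 g8 g9 g10 g11 g15 g7 g5 g6 g20 g19 : ℕ) : Bool :=
  !(Nat.beq g19 (cjN g20 g6)) || st22 cl cen g0 g3 g12 g18 g13 g14 g17 g2 g16 g1 g4 g8 g9 g10 g11 g15 g7 g5 g6 g20 g19

def st20 (cl cen : List ℕ) (g0 g3 g12 g18 g13 g14 g17 g2 g16 g1 g4 g8 g9 g10 g11 g15 g7 g5 g6 g20 : ℕ) : Bool :=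
  force (cjN g20 g10) fun g19 => st21 cl cen g0 g3 g12 g18 g13 g14 g17 g2 g16 g1 g4 g8 g9 g10 g11 g15 g7 g5 g6 g20 g19

def st19 (cl cen : List ℕ) (g0 g3 g12 g18 g13 g14 g17 g2 g16 g1 g4 g8 g9 g10 g11 g15 g7 g5 g6 : ℕ) : Bool :=
  force (invN (wN g6)) fun u => force (wN g5) fun w => cen.all fun c =>
    force (mulN (mulN u c) w) fun g20 => st20 cl cen g0 g3 g12 g18 g13 g14 g17 g2 g16 g1 g4 g8 g9 g10 g11 g15 g7 g5 g6 g20

def st18 (cl cen : List ℕ) (g0 g3 g12 g18 g13 g14 g17 g2 g16 g1 g4 g8 g9 g10 g11 g15 g7 g5 : ℕ) : Bool :=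
  force (cjN g7 g15) fun g6 => st19 cl cen g0 g3 g12 g18 g13 g14 g17 g2 g16 g1 g4 g8 g9 g10 g11 g15 g7 g5 g6

def st17 (cl cen : List ℕ) (g0 g3 g12 g18 g13 g14 g17 g2 g16 g1 g4 g8 g9 g10 g11 g15 g7 : ℕ) : Bool :=
  force (cjN g4 g15) fun g5 => st18 cl cen g0 g3 g12 g18 g13 g14 g17 g2 g16 g1 g4 g8 g9 g10 g11 g15 g7 g5

def st16 (cl cen : List ℕ) (g0 g3 g12 g18 g13 g14 g17 g2 g16 g1 g4 g8 g9 g10 g11 g15 : ℕ) : Bool :=
  force (ciN g8 g1) fun g7 => st17 cl cen g0 g3 g12 g18 g13 g14 g17 g2 g16 g1 g4 g8 g9 g10 g11 g15 g7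

def st15 (cl cen : List ℕ) (g0 g3 g12 g18 g13 g14 g17 g2 g16 g1 g4 g8 g9 g10 g11 g15 : ℕ) : Bool :=
  !(Nat.beq g16 (cjN g15 g11)) || st16 cl cen g0 g3 g12 g18 g13 g14 g17 g2 g16 g1 g4 g8 g9 g10 g11 g15

def st14 (cl cen : List ℕ) (g0 g3 g12 g18 g13 g14 g17 g2 g16 g1 g4 g8 g9 g10 g11 : ℕ) : Bool :=
  force (ciN g14 g10) fun g15 => st15 cl cen g0 g3 g12 g18 g13 g14 g17 g2 g16 g1 g4 g8 g9 g10 g11 g15

def st13 (cl cen : List ℕ) (g0 g3 g12 g18 g13 g14 g17 g2 g16 g1 g4 g8 g9 g10 : ℕ) : Bool :=
  force (cjN g12 g8) fun g11 => st14 cl cen g0 g3 g12 g18 g13 g14 g17 g2 g16 g1 g4 g8 g9 g10 g11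

def st12 (cl cen : List ℕ) (g0 g3 g12 g18 g13 g14 g17 g2 g16 g1 g4 g8 g9 : ℕ) : Bool :=
  force (cjN g9 g17) fun g10 => st13 cl cen g0 g3 g12 g18 g13 g14 g17 g2 g16 g1 g4 g8 g9 g10

def st11 (cl cen : List ℕ) (g0 g3 g12 g18 g13 g14 g17 g2 g16 g1 g4 g8 : ℕ) : Bool :=
  force (ciN g8 g14) fun g9 => st12 cl cen g0 g3 g12 g18 g13 g14 g17 g2 g16 g1 g4 g8 g9

def st10 (cl cen : List ℕ) (g0 g3 g12 g18 g13 g14 g17 g2 g16 g1 g4 : ℕ) : Bool :=
  force (invN (wN g0)) fun u => force (wN g1) fun w => cen.all fun c =>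
    force (mulN (mulN u c) w) fun g8 => st11 cl cen g0 g3 g12 g18 g13 g14 g17 g2 g16 g1 g4 g8

def st9 (cl cen : List ℕ) (g0 g3 g12 g18 g13 g14 g17 g2 g16 g1 : ℕ) : Bool :=
  force (ciN g3 g1) fun g4 => st10 cl cen g0 g3 g12 g18 g13 g14 g17 g2 g16 g1 g4

def st8 (cl cen : List ℕ) (g0 g3 g12 g18 g13 g14 g17 g2 g16 : ℕ) : Bool :=
  force (cjN g2 g17) fun g1 => st9 cl cen g0 g3 g12 g18 g13 g14 g17 g2 g16 g1

def st7 (cl cen : List ℕ) (g0 g3 g12 g18 g13 g14 g17 g2 : ℕ) : Bool :=
  force (cjN g17 g14) fun g16 => st8 cl cen g0 g3 g12 g18 g13 g14 g17 g2 g16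

def st6 (cl cen : List ℕ) (g0 g3 g12 g18 g13 g14 g17 : ℕ) : Bool :=
  force (ciN g3 g14) fun g2 => st7 cl cen g0 g3 g12 g18 g13 g14 g17 g2

def st5 (cl cen : List ℕ) (g0 g3 g12 g18 g13 g14 : ℕ) : Bool :=
  force (cjN g18 g3) fun g17 => st6 cl cen g0 g3 g12 g18 g13 g14 g17

def st4 (cl cen : List ℕ) (g0 g3 g12 g18 g13 : ℕ) : Bool :=
  force (cjN g13 g3) fun g14 => st5 cl cen g0 g3 g12 g18 g13 g14

def st3 (cl cen : List ℕ) (g0 g3 g12 g18 : ℕ) : Bool :=
  force (ciN g12 g18) fun g13 => st4 cl cen g0 g3 g12 g18 g13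

def st2 (cl cen : List ℕ) (g0 g3 g12 : ℕ) : Bool :=
  force (cjN g0 g12) fun g18 => st3 cl cen g0 g3 g12 g18

def st1 (cl cen : List ℕ) (g0 g3 : ℕ) : Bool :=
  cl.all fun g12 => st2 cl cen g0 g3 g12

def st0 (cl cen : List ℕ) (g0 : ℕ) : Bool :=
  cl.all fun g3 => st1 cl cen g0 g3

theorem check : ∀ t : Fin 5, t.val ≠ 0 → st0 (cl t.val) (cen t.val) (rep t.val) = true := by
  decide +kernel

/-- The conjugation relations of a coloured pattern. -/
structure PatRel (v : Fin 21 → TG) : Prop where
  f0 : v 1 = (v 8)⁻¹ * v 0 * v 8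
  f1 : v 1 = (v 17)⁻¹ * v 2 * v 17
  f2 : v 3 = (v 14)⁻¹ * v 2 * v 14
  f3 : v 3 = (v 1)⁻¹ * v 4 * v 1
  f4 : v 5 = (v 15)⁻¹ * v 4 * v 15
  f5 : v 5 = (v 20)⁻¹ * v 6 * v 20
  f6 : v 6 = (v 15)⁻¹ * v 7 * v 15
  f7 : v 8 = (v 1)⁻¹ * v 7 * v 1
  f8 : v 8 = (v 14)⁻¹ * v 9 * v 14
  f9 : v 10 = (v 17)⁻¹ * v 9 * v 17
  f10 : v 11 = (v 19)⁻¹ * v 10 * v 19
  f11 : v 11 = (v 8)⁻¹ * v 12 * v 8
  f12 : v 12 = (v 18)⁻¹ * v 13 * v 18
  f13 : v 14 = (v 3)⁻¹ * v 13 * v 3
  f14 : v 14 = (v 10)⁻¹ * v 15 * v 10
  f15 : v 16 = (v 11)⁻¹ * v 15 * v 11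
  f16 : v 16 = (v 14)⁻¹ * v 17 * v 14
  f17 : v 17 = (v 3)⁻¹ * v 18 * v 3
  f18 : v 18 = (v 12)⁻¹ * v 0 * v 12
  f19 : v 19 = (v 6)⁻¹ * v 20 * v 6
  f20 : v 19 = (v 10)⁻¹ * v 20 * v 10

theorem patRel_of_isCol (v : Fin 21 → TG) (h : pattern.IsCol v) : PatRel v := by
  have g : ∀ a : Fin 21, v (P258.nextV a) = v (P258.aboveV a) ^ (-(P258.sgnV a : ℤ)) * v a *
      v (P258.aboveV a) ^ (P258.sgnV a : ℤ) := by
    intro a
    rw [← P258.nextV_eq, ← P258.aboveV_eq, ← P258.sgnV_eq]
    exact h a
  constructor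
  · simpa [P258.nextV, P258.aboveV, P258.sgnV] using g 0
  · have := g 1; simp [P258.nextV, P258.aboveV, P258.sgnV] at this; rw [this]; group
  · simpa [P258.nextV, P258.aboveV, P258.sgnV] using g 2
  · have := g 3; simp [P258.nextV, P258.aboveV, P258.sgnV] at this; rw [this]; group
  · simpa [P258.nextV, P258.aboveV, P258.sgnV] using g 4
  · have := g 5; simp [P258.nextV, P258.aboveV, P258.sgnV] at this; rw [this]; group
  · have := g 6; simp [P258.nextV, P258.aboveV, P258.sgnV] at this; rw [this]; group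
  · simpa [P258.nextV, P258.aboveV, P258.sgnV] using g 7
  · have := g 8; simp [P258.nextV, P258.aboveV, P258.sgnV] at this; rw [this]; group
  · simpa [P258.nextV, P258.aboveV, P258.sgnV] using g 9
  · simpa [P258.nextV, P258.aboveV, P258.sgnV] using g 10
  · have := g 11; simp [P258.nextV, P258.aboveV, P258.sgnV] at this; rw [this]; group
  · have := g 12; simp [P258.nextV, P258.aboveV, P258.sgnV] at this; rw [this]; group
  · simpa [P258.nextV, P258.aboveV, P258.sgnV] using g 13
  · have := g 14; simp [P258.nextV, P258.aboveV, P258.sgnV] at this; rw [this]; group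
  · simpa [P258.nextV, P258.aboveV, P258.sgnV] using g 15
  · have := g 16; simp [P258.nextV, P258.aboveV, P258.sgnV] at this; rw [this]; group
  · have := g 17; simp [P258.nextV, P258.aboveV, P258.sgnV] at this; rw [this]; group
  · have := g 18; simp [P258.nextV, P258.aboveV, P258.sgnV] at this; rw [this]; group
  · have := g 19; simp [P258.nextV, P258.aboveV, P258.sgnV] at this; rw [this]; group
  · simpa [P258.nextV, P258.aboveV, P258.sgnV] using g 20

theorem isCol_of_patRel (v : Fin 21 → TG) (h : PatRel v) : pattern.IsCol v := by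
  have g : ∀ a : Fin 21, v (P258.nextV a) = v (P258.aboveV a) ^ (-(P258.sgnV a : ℤ)) * v a *
      v (P258.aboveV a) ^ (P258.sgnV a : ℤ) := by
    intro a
    fin_cases a
    · simpa [P258.nextV, P258.aboveV, P258.sgnV] using h.f0
    · have := h.f1; simp [P258.nextV, P258.aboveV, P258.sgnV]; rw [this]; group
    · simpa [P258.nextV, P258.aboveV, P258.sgnV] using h.f2
    · have := h.f3; simp [P258.nextV, P258.aboveV, P258.sgnV]; rw [this]; group
    · simpa [P258.nextV, P258.aboveV, P258.sgnV] using h.f4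
    · have := h.f5; simp [P258.nextV, P258.aboveV, P258.sgnV]; rw [this]; group
    · have := h.f6; simp [P258.nextV, P258.aboveV, P258.sgnV]; rw [this]; group
    · simpa [P258.nextV, P258.aboveV, P258.sgnV] using h.f7
    · have := h.f8; simp [P258.nextV, P258.aboveV, P258.sgnV]; rw [this]; group
    · simpa [P258.nextV, P258.aboveV, P258.sgnV] using h.f9
    · simpa [P258.nextV, P258.aboveV, P258.sgnV] using h.f10
    · have := h.f11; simp [P258.nextV, P258.aboveV, P258.sgnV]; rw [this]; group
    · have := h.f12; simp [P258.nextV, P258.aboveV, P258.sgnV]; rw [this]; group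
    · simpa [P258.nextV, P258.aboveV, P258.sgnV] using h.f13
    · have := h.f14; simp [P258.nextV, P258.aboveV, P258.sgnV]; rw [this]; group
    · simpa [P258.nextV, P258.aboveV, P258.sgnV] using h.f15
    · have := h.f16; simp [P258.nextV, P258.aboveV, P258.sgnV]; rw [this]; group
    · have := h.f17; simp [P258.nextV, P258.aboveV, P258.sgnV]; rw [this]; group
    · have := h.f18; simp [P258.nextV, P258.aboveV, P258.sgnV]; rw [this]; group
    · have := h.f19; simp [P258.nextV, P258.aboveV, P258.sgnV]; rw [this]; group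
    · simpa [P258.nextV, P258.aboveV, P258.sgnV] using h.f20
  intro a
  change Fin 21 at a
  have h1 := g a
  rw [← P258.nextV_eq a, ← P258.aboveV_eq a, ← P258.sgnV_eq a] at h1
  exact h1

/-- The value of the longitude of `K`. -/
def lamK {H : Type*} [Group H] (v : Fin 21 → H) : H :=
  ((((((((((((((((((v 8 * (v 17)⁻¹) * v 14) * (v 1)⁻¹) * v 15) * (v 20)⁻¹) * (v 15)⁻¹) * v 1) * (v 14)⁻¹) * v 17) * v 19) * (v 8)⁻¹) * (v 18)⁻¹) * v 3) * (v 10)⁻¹) * v 11) * (v 14)⁻¹) * (v 3)⁻¹) * (v 12)⁻¹) * (v 0 * (v 0 * v 0))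

theorem fwd {a b k : TG} (h : b = k⁻¹ * a * k) : code b = cjN (code a) (code k) := by
  rw [h, code_cj]

theorem bwd {a b k : TG} (h : b = k⁻¹ * a * k) : code a = ciN (code b) (code k) := by
  have : a = k * b * k⁻¹ := by rw [h]; group
  rw [this, code_ci]

theorem all_step {l : List ℕ} {x : ℕ} {p : ℕ → Bool} (h : l.all p = true) (hx : x ∈ l) :
    p x = true := List.all_eq_true.1 h x hx

theorem sound (v : Fin 21 → TG) (h : PatRel v) (t : ℕ)
    (h3 : code (v 3) ∈ cl t) (h12 : code (v 12) ∈ cl t)
    (hc1 : ∃ c ∈ cen t, code (v 8) = mulN (mulN (invN (wN (code (v 0)))) c) (wN (code (v 1))))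
    (hc2 : ∃ c ∈ cen t, code (v 20) = mulN (mulN (invN (wN (code (v 6)))) c) (wN (code (v 5))))
    (hd : st0 (cl t) (cen t) (code (v 0)) = true) : v 0 * v 0 * lamK v ≠ 1 := by
  intro hl
  obtain ⟨c1, hc1, ec1⟩ := hc1
  obtain ⟨c2, hc2, ec2⟩ := hc2
  unfold st0 at hd
  replace hd := all_step hd h3
  unfold st1 at hd
  replace hd := all_step hd h12
  unfold st2 at hd
  rw [force_eq, ← fwd h.f18] at hd
  unfold st3 at hd
  rw [force_eq, ← bwd h.f12] at hd
  unfold st4 at hd
  rw [force_eq, ← fwd h.f13] at hd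
  unfold st5 at hd
  rw [force_eq, ← fwd h.f17] at hd
  unfold st6 at hd
  rw [force_eq, ← bwd h.f2] at hd
  unfold st7 at hd
  rw [force_eq, ← fwd h.f16] at hd
  unfold st8 at hd
  rw [force_eq, ← fwd h.f1] at hd
  unfold st9 at hd
  rw [force_eq, ← bwd h.f3] at hd
  unfold st10 at hd
  rw [force_eq, force_eq] at hd
  replace hd := all_step hd hc1
  rw [force_eq, ← ec1] at hd
  unfold st11 at hd
  rw [force_eq, ← bwd h.f8] at hd
  unfold st12 at hd
  rw [force_eq, ← fwd h.f9] at hd
  unfold st13 at hd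
  rw [force_eq, ← fwd h.f11] at hd
  unfold st14 at hd
  rw [force_eq, ← bwd h.f14] at hd
  unfold st15 at hd
  replace hd := test_step hd (fwd h.f15)
  unfold st16 at hd
  rw [force_eq, ← bwd h.f7] at hd
  unfold st17 at hd
  rw [force_eq, ← fwd h.f4] at hd
  unfold st18 at hd
  rw [force_eq, ← fwd h.f6] at hd
  unfold st19 at hd
  rw [force_eq, force_eq] at hd
  replace hd := all_step hd hc2
  rw [force_eq, ← ec2] at hd
  unfold st20 at hd
  rw [force_eq, ← fwd h.f20] at hd
  unfold st21 at hd
  replace hd := test_step hd (fwd h.f19)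
  unfold st22 at hd
  replace hd := test_step hd (fwd h.f10)
  unfold st23 at hd
  have h3 : code (v 0 * v 0 * lamK v) = 513 := by rw [hl, code_one]
  unfold lamK at h3
  simp only [code_mul, code_inv] at h3
  rw [Bool.not_eq_true'] at hd
  exact Nat.ne_of_beq_eq_false hd h3

theorem arc_term {H : Type*} [Group H] (v : Fin 21 → H) (b : Fin 21) :
    v (pattern.above b) ^ ((pattern.sgn b : ℤˣ) : ℤ) = v (P258.aboveV b) ^ (P258.sgnV b : ℤ) := by
  rw [P258.aboveV_eq, P258.sgnV_eq]

theorem lonVal_K {H : Type*} [Group H] (v : Fin 21 → H) : pattern.lonVal v patternK = lamK v := by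
  have h : (fun b : Fin 21 => v (pattern.above b) ^ ((pattern.sgn b : ℤˣ) : ℤ)) =
      fun b => v (P258.aboveV b) ^ (P258.sgnV b : ℤ) := funext (arc_term v)
  have h1 : (List.map (fun b : Fin 21 => v (pattern.above b) ^ ((pattern.sgn b : ℤˣ) : ℤ))
      [0, 1, 2, 3, 4, 5, 6, 7, 8, 9, 10, 11, 12, 13, 14, 15, 16, 17, 18]).prod =
      v 8 ^ (1 : ℤ) * (v 17 ^ (-1 : ℤ) * (v 14 ^ (1 : ℤ) * (v 1 ^ (-1 : ℤ) * (v 15 ^ (1 : ℤ) * (v 20 ^ (-1 : ℤ) * (v 15 ^ (-1 : ℤ) * (v 1 ^ (1 : ℤ) * (v 14 ^ (-1 : ℤ) * (v 17 ^ (1 : ℤ) * (v 19 ^ (1 : ℤ) * (v 8 ^ (-1 : ℤ) * (v 18 ^ (-1 : ℤ) * (v 3 ^ (1 : ℤ) * (v 10 ^ (-1 : ℤ) * (v 11 ^ (1 : ℤ) * (v 14 ^ (-1 : ℤ) * (v 3 ^ (-1 : ℤ) * (v 12 ^ (-1 : ℤ) * (1))))))))))))))))))) := by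
    rw [h]
    rfl
  have h3 := lonVal_eq (D := pattern) v patternK _ _ _ P258.walk_K P258.writhe_K h1
  have h2 : v patternK = v 0 := rfl
  have h5 : v 0 ^ (-(-3 : ℤ)) = v 0 * (v 0 * v 0) := by
    rw [neg_neg, ← pow_three]
    exact zpow_natCast (v 0) 3
  rw [h2, h5] at h3
  rw [h3]
  simp only [lamK, zpow_one, zpow_neg_one, mul_one, mul_assoc]

theorem lonVal_E {H : Type*} [Group H] (v : Fin 21 → H) : pattern.lonVal v patternE = (v 6)⁻¹ * v 10 := by
  have h : (fun b : Fin 21 => v (pattern.above b) ^ ((pattern.sgn b : ℤˣ) : ℤ)) =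
      fun b => v (P258.aboveV b) ^ (P258.sgnV b : ℤ) := funext (arc_term v)
  have h1 : (List.map (fun b : Fin 21 => v (pattern.above b) ^ ((pattern.sgn b : ℤˣ) : ℤ))
      [19, 20]).prod = v 6 ^ (-1 : ℤ) * (v 10 ^ (1 : ℤ) * (1)) := by
    rw [h]
    rfl
  have h3 := lonVal_eq (D := pattern) v patternE _ _ _ P258.walk_E P258.writhe_E h1
  rw [h3]
  simp only [zpow_one, zpow_neg_one, mul_one, neg_zero, zpow_zero]

theorem cls_next (D : Diagram) (ρ : Fin D.n → TG) (h : D.IsCol ρ) (a : Fin D.n) :
    cls (ρ (D.next a)) = cls (ρ a) := by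
  rcases Int.units_eq_one_or (D.sgn a) with hs | hs
  · have h1 := h a
    rw [hs] at h1
    have h2 : ρ (D.next a) = (ρ (D.above a))⁻¹ * ρ a * ρ (D.above a) := by
      simpa using h1
    rw [h2, cls_conj]
  · have h1 := h a
    rw [hs] at h1
    have h2 : ρ a = (ρ (D.above a))⁻¹ * ρ (D.next a) * ρ (D.above a) := by
      rw [h1]
      simp only [Units.val_neg, Units.val_one, neg_neg, zpow_one, zpow_neg]
      group
    rw [h2, cls_conj]

theorem cls_same (D : Diagram) (ρ : Fin D.n → TG) (h : D.IsCol ρ) {a b : Fin D.n}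
    (hab : D.SameComponent a b) : cls (ρ b) = cls (ρ a) := by
  obtain ⟨i, rfl⟩ := hab
  induction i with
  | zero => rfl
  | succ i ih => rw [Function.iterate_succ_apply', cls_next D ρ h, ih]

theorem keyR (ρ : Fin 21 → TG) (h : pattern.IsCol ρ) (hs : eps (ρ 0) ≠ 1)
    (hl : ρ 0 * ρ 0 * pattern.lonVal ρ patternK = 1) : ρ 0 * ρ 0 * (ρ 0 * ρ 0) = 1 := by
  by_contra hne
  have ht0 : cls (ρ 0) ≠ 0 := fun h0 => ((cls_zero _).1 h0).elim hs hne
  obtain ⟨W, R, hW, hR, eW⟩ := exists_w ht0
  let φ : TG →* TG := (MulAut.conj W).toMonoidHom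
  have hφ : ∀ g, φ g = W * g * W⁻¹ := fun g => by simp [φ]
  let v : Fin 21 → TG := fun a => φ (ρ a)
  have hv : pattern.IsCol v := Diagram.IsCol.map pattern h φ
  have hP : PatRel v := patRel_of_isCol v hv
  have hlv : v 0 * v 0 * lamK v = 1 := by
    rw [← lonVal_K]
    have h3 : pattern.lonVal v patternK = φ (pattern.lonVal ρ patternK) :=
      Diagram.lonVal_map pattern ρ φ patternK
    rw [h3]
    change φ (ρ 0) * φ (ρ 0) * _ = 1
    rw [← map_mul, ← map_mul, hl, map_one]
  have htv : ∀ b : Fin 21, b.val < 19 → cls (v b) = cls (v 0) := fun b hb =>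
    cls_same pattern v hv ((P258.comp_K b).2 hb)
  have hv0 : v 0 = R := by
    change φ (ρ 0) = _
    rw [hφ, eW]; group
  have e0 : cls (v 0) = cls (ρ 0) := by
    change cls (φ (ρ 0)) = _
    rw [hφ]
    have := cls_conj (ρ 0) W⁻¹
    rwa [inv_inv] at this
  have hne : cls (v 0) ≠ 0 := by rw [e0]; exact ht0
  have h3 : code (v 3) ∈ cl (cls (ρ 0)) := by
    have := mem_cl (A := v 3) (by rw [htv 3 (by decide)]; exact hne)
    rwa [htv 3 (by decide), e0] at this
  have h12 : code (v 12) ∈ cl (cls (ρ 0)) := by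
    have := mem_cl (A := v 12) (by rw [htv 12 (by decide)]; exact hne)
    rwa [htv 12 (by decide), e0] at this
  have hc1 : ∃ c ∈ cen (cls (ρ 0)),
      code (v 8) = mulN (mulN (invN (wN (code (v 0)))) c) (wN (code (v 1))) := by
    have := transporter (g := v 0) (h := v 1) (y := v 8) hne hP.f0
    rwa [e0] at this
  have hc2 : ∃ c ∈ cen (cls (ρ 0)),
      code (v 20) = mulN (mulN (invN (wN (code (v 6)))) c) (wN (code (v 5))) := by
    have := transporter (g := v 6) (h := v 5) (y := v 20)
      (by rw [htv 6 (by decide)]; exact hne) hP.f5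
    rwa [htv 6 (by decide), e0] at this
  refine sound v hP (cls (ρ 0)) h3 h12 hc1 hc2 ?_ hlv
  rw [hv0, hR]
  exact check ⟨cls (ρ 0), cls_lt _⟩ ht0

theorem zpow_congr {H : Type*} [Group H] (x : H) (m n : ℤ) (hx : x ^ n = 1) (f : ℤ)
    (hf : f % n = m) : x ^ f = x ^ m := by
  have h : f = n * (f / n) + m := by rw [← hf]; exact (Int.mul_ediv_add_emod f n).symm
  rw [h, zpow_add, zpow_mul, hx, one_zpow, one_mul]

/-- A colouring of the pattern. -/
def colA : Fin 21 → TG :=
  ![⟨true, 2, 3, 1, 0, by decide⟩,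
    ⟨true, 4, 0, 4, 3, by decide⟩,
    ⟨true, 4, 1, 0, 3, by decide⟩,
    ⟨true, 0, 2, 4, 2, by decide⟩,
    ⟨true, 4, 1, 0, 3, by decide⟩,
    ⟨true, 1, 2, 2, 1, by decide⟩,
    ⟨true, 3, 1, 0, 4, by decide⟩,
    ⟨true, 2, 3, 1, 0, by decide⟩,
    ⟨true, 0, 1, 3, 2, by decide⟩,
    ⟨true, 2, 3, 1, 0, by decide⟩,
    ⟨true, 3, 0, 3, 4, by decide⟩,
    ⟨true, 1, 4, 1, 1, by decide⟩,
    ⟨true, 2, 2, 4, 0, by decide⟩,
    ⟨true, 1, 2, 2, 1, by decide⟩,
    ⟨true, 4, 0, 4, 3, by decide⟩,
    ⟨true, 4, 0, 3, 3, by decide⟩,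
    ⟨true, 0, 3, 1, 2, by decide⟩,
    ⟨true, 1, 4, 1, 1, by decide⟩,
    ⟨true, 3, 3, 0, 4, by decide⟩,
    ⟨false, 4, 3, 2, 3, by decide⟩,
    ⟨false, 3, 1, 1, 4, by decide⟩]

theorem colA_rel : PatRel colA where
  f0 := code_inj (by rw [code_cj]; decide +kernel)
  f1 := code_inj (by rw [code_cj]; decide +kernel)
  f2 := code_inj (by rw [code_cj]; decide +kernel)
  f3 := code_inj (by rw [code_cj]; decide +kernel)
  f4 := code_inj (by rw [code_cj]; decide +kernel)
  f5 := code_inj (by rw [code_cj]; decide +kernel)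
  f6 := code_inj (by rw [code_cj]; decide +kernel)
  f7 := code_inj (by rw [code_cj]; decide +kernel)
  f8 := code_inj (by rw [code_cj]; decide +kernel)
  f9 := code_inj (by rw [code_cj]; decide +kernel)
  f10 := code_inj (by rw [code_cj]; decide +kernel)
  f11 := code_inj (by rw [code_cj]; decide +kernel)
  f12 := code_inj (by rw [code_cj]; decide +kernel)
  f13 := code_inj (by rw [code_cj]; decide +kernel)
  f14 := code_inj (by rw [code_cj]; decide +kernel)
  f15 := code_inj (by rw [code_cj]; decide +kernel)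
  f16 := code_inj (by rw [code_cj]; decide +kernel)
  f17 := code_inj (by rw [code_cj]; decide +kernel)
  f18 := code_inj (by rw [code_cj]; decide +kernel)
  f19 := code_inj (by rw [code_cj]; decide +kernel)
  f20 := code_inj (by rw [code_cj]; decide +kernel)

theorem colA_isCol : pattern.IsCol colA := isCol_of_patRel _ colA_rel

theorem colA_K : pattern.lonVal colA patternK = colA 0 * colA 0 := by
  rw [lonVal_K]
  apply code_inj
  unfold lamK
  simp only [code_mul, code_inv, code_one]
  decide +kernel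

theorem colA_sq : colA 0 * colA 0 * (colA 0 * colA 0) ≠ 1 := by
  intro h
  have := congrArg code h
  rw [code_mul, code_mul, code_one] at this
  revert this
  decide +kernel

theorem colA_sign : eps (colA 0) ≠ 1 := by rw [Ne, eps_iff]; decide +kernel

theorem colA_E : (pattern.lonVal colA patternE) ^ (10 : ℕ) = 1 := by
  rw [lonVal_E]
  apply code_inj
  simp only [pow_succ, pow_zero, one_mul, code_mul, code_inv, code_one]
  decide +kernel

theorem colA_19 : (pattern.lonVal colA patternE) ^ (4 : ℕ) = colA 19 := by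
  rw [lonVal_E]
  apply code_inj
  simp only [pow_succ, pow_zero, one_mul, code_mul, code_inv, code_one]
  decide +kernel

theorem colA_f (f : ℤ) (hf : f % 10 = 4) :
    colA 19 = (pattern.lonVal colA patternE) ^ f := by
  rw [zpow_congr _ 4 10 (by exact_mod_cast colA_E) f hf, ← colA_19]
  norm_cast

/-- A colouring of the pattern. -/
def colB : Fin 21 → TG :=
  ![⟨true, 2, 3, 1, 0, by decide⟩,
    ⟨true, 4, 0, 4, 3, by decide⟩,
    ⟨true, 4, 1, 0, 3, by decide⟩,
    ⟨true, 0, 2, 4, 2, by decide⟩,
    ⟨true, 4, 1, 0, 3, by decide⟩,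
    ⟨true, 1, 2, 2, 1, by decide⟩,
    ⟨true, 3, 1, 0, 4, by decide⟩,
    ⟨true, 2, 3, 1, 0, by decide⟩,
    ⟨true, 0, 1, 3, 2, by decide⟩,
    ⟨true, 2, 3, 1, 0, by decide⟩,
    ⟨true, 3, 0, 3, 4, by decide⟩,
    ⟨true, 1, 4, 1, 1, by decide⟩,
    ⟨true, 2, 2, 4, 0, by decide⟩,
    ⟨true, 1, 2, 2, 1, by decide⟩,
    ⟨true, 4, 0, 4, 3, by decide⟩,
    ⟨true, 4, 0, 3, 3, by decide⟩,
    ⟨true, 0, 3, 1, 2, by decide⟩,
    ⟨true, 1, 4, 1, 1, by decide⟩,
    ⟨true, 3, 3, 0, 4, by decide⟩,
    ⟨false, 1, 2, 3, 2, by decide⟩,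
    ⟨false, 2, 4, 4, 1, by decide⟩]

theorem colB_rel : PatRel colB where
  f0 := code_inj (by rw [code_cj]; decide +kernel)
  f1 := code_inj (by rw [code_cj]; decide +kernel)
  f2 := code_inj (by rw [code_cj]; decide +kernel)
  f3 := code_inj (by rw [code_cj]; decide +kernel)
  f4 := code_inj (by rw [code_cj]; decide +kernel)
  f5 := code_inj (by rw [code_cj]; decide +kernel)
  f6 := code_inj (by rw [code_cj]; decide +kernel)
  f7 := code_inj (by rw [code_cj]; decide +kernel)
  f8 := code_inj (by rw [code_cj]; decide +kernel)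
  f9 := code_inj (by rw [code_cj]; decide +kernel)
  f10 := code_inj (by rw [code_cj]; decide +kernel)
  f11 := code_inj (by rw [code_cj]; decide +kernel)
  f12 := code_inj (by rw [code_cj]; decide +kernel)
  f13 := code_inj (by rw [code_cj]; decide +kernel)
  f14 := code_inj (by rw [code_cj]; decide +kernel)
  f15 := code_inj (by rw [code_cj]; decide +kernel)
  f16 := code_inj (by rw [code_cj]; decide +kernel)
  f17 := code_inj (by rw [code_cj]; decide +kernel)
  f18 := code_inj (by rw [code_cj]; decide +kernel)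
  f19 := code_inj (by rw [code_cj]; decide +kernel)
  f20 := code_inj (by rw [code_cj]; decide +kernel)

theorem colB_isCol : pattern.IsCol colB := isCol_of_patRel _ colB_rel

theorem colB_K : pattern.lonVal colB patternK = colB 0 * colB 0 := by
  rw [lonVal_K]
  apply code_inj
  unfold lamK
  simp only [code_mul, code_inv, code_one]
  decide +kernel

theorem colB_sq : colB 0 * colB 0 * (colB 0 * colB 0) ≠ 1 := by
  intro h
  have := congrArg code h
  rw [code_mul, code_mul, code_one] at this
  revert this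
  decide +kernel

theorem colB_sign : eps (colB 0) ≠ 1 := by rw [Ne, eps_iff]; decide +kernel

theorem colB_E : (pattern.lonVal colB patternE) ^ (10 : ℕ) = 1 := by
  rw [lonVal_E]
  apply code_inj
  simp only [pow_succ, pow_zero, one_mul, code_mul, code_inv, code_one]
  decide +kernel

theorem colB_19 : (pattern.lonVal colB patternE) ^ (9 : ℕ) = colB 19 := by
  rw [lonVal_E]
  apply code_inj
  simp only [pow_succ, pow_zero, one_mul, code_mul, code_inv, code_one]
  decide +kernel

theorem colB_f (f : ℤ) (hf : f % 10 = 9) :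
    colB 19 = (pattern.lonVal colB patternE) ^ f := by
  rw [zpow_congr _ 9 10 (by exact_mod_cast colB_E) f hf, ← colB_19]
  norm_cast

theorem isHom_iff {H : Type} [Group H] (ρ : Fin pattern.n → H) :
    IsHom pattern ρ ↔ pattern.IsCol ρ :=
  ⟨fun h i => (pattern.lift_wirtinger ρ i).1 (h i), fun h i => (pattern.lift_wirtinger ρ i).2 (h i)⟩

theorem lon_eq {H : Type} [Group H] (ρ : Fin pattern.n → H) (i : Fin pattern.n) :
    lon pattern ρ i = pattern.lonVal ρ i := Diagram.lift_longitude _ _ _

theorem zpow_neg_four {H : Type*} [Group H] (x : H) : x ^ ((-2 : ℤ) - 2) = (x * x * (x * x))⁻¹ := by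
  have : ((-2 : ℤ) - 2) = -((4 : ℕ) : ℤ) := by norm_num
  rw [this, zpow_neg, zpow_natCast]
  congr 1
  simp only [pow_succ, pow_zero, one_mul, mul_assoc]

theorem second_clause (ρ : Fin pattern.n → TG) (f : ℤ) (h1 : pattern.IsCol ρ)
    (hs : eps (ρ patternK) ≠ 1)
    (h2 : pattern.lonVal ρ patternK = ρ patternK * ρ patternK)
    (h3 : ρ patternK * ρ patternK * (ρ patternK * ρ patternK) ≠ 1)
    (h4 : ρ patternE = (pattern.lonVal ρ patternE) ^ f) :
    ∃ ρ : Fin pattern.n → TG, IsHom pattern ρ ∧ eps (ρ patternK) ≠ 1 ∧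
      ρ patternK ^ (-2 : ℤ) * lon pattern ρ patternK = 1 ∧ ρ patternK ^ ((-2 : ℤ) - 2) ≠ 1 ∧
      ρ patternE = lon pattern ρ patternE ^ f := by
  refine ⟨ρ, (isHom_iff _).2 h1, hs, ?_, ?_, ?_⟩
  · rw [lon_eq, h2]; group
  · rw [zpow_neg_four, inv_ne_one]; exact h3
  · rw [lon_eq]; exact h4

/-- Row D5, first clause. -/
theorem rowA (ρ : Fin pattern.n → TG) (h : IsHom pattern ρ)
    (hs : eps (ρ patternK) ≠ 1)
    (hl : ρ patternK ^ (2 : ℤ) * lon pattern ρ patternK = 1) :
    ρ patternK ^ ((-2 : ℤ) - 2) = 1 := by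
  rw [zpow_neg_four, inv_eq_one]
  rw [lon_eq, zpow_two] at hl
  exact keyR ρ ((isHom_iff _).1 h) hs hl

/-- Row D5, second clause. -/
theorem rowB (f : ℤ) (hf : f % 5 = 4) :
    ∃ ρ : Fin pattern.n → TG, IsHom pattern ρ ∧ eps (ρ patternK) ≠ 1 ∧
      ρ patternK ^ (-2 : ℤ) * lon pattern ρ patternK = 1 ∧ ρ patternK ^ ((-2 : ℤ) - 2) ≠ 1 ∧
      ρ patternE = lon pattern ρ patternE ^ f := by
  have h10 : f % 10 = 4 ∨ f % 10 = 9 := by omega
  rcases h10 with hf | hf
  · exact second_clause colA f colA_isCol colA_sign colA_K colA_sq (colA_f f hf)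
  · exact second_clause colB f colB_isCol colB_sign colB_K colB_sq (colB_f f hf)

def pow120N (x : ℕ) : ℕ :=
  force (mulN x x) fun u2 => force (mulN u2 u2) fun u4 => force (mulN u4 u4) fun u8 =>
    force (mulN u8 u8) fun u16 => force (mulN u16 u16) fun u32 => force (mulN u32 u32) fun u64 =>
      mulN (mulN (mulN u64 u32) u16) u8

theorem chk_pow120 : ∀ (o : Bool) (a b c d : ZMod 5),
    dv o.toNat a.val b.val c.val d.val = true →
    pow120N (cd o.toNat a.val b.val c.val d.val) = 513 := by
  decide +kernel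

/-- Row D5, the exponent. -/
theorem rowC (g : TG) : g ^ 120 = 1 := by
  have h : g ^ 120 = g ^ 64 * g ^ 32 * g ^ 16 * g ^ 8 := by
    simp only [← pow_add]
  have h2 : g ^ 2 = g * g := pow_two g
  have h4 : g ^ 4 = g ^ 2 * g ^ 2 := by simp only [← pow_add]
  have h8 : g ^ 8 = g ^ 4 * g ^ 4 := by simp only [← pow_add]
  have h16 : g ^ 16 = g ^ 8 * g ^ 8 := by simp only [← pow_add]
  have h32 : g ^ 32 = g ^ 16 * g ^ 16 := by simp only [← pow_add]
  have h64 : g ^ 64 = g ^ 32 * g ^ 32 := by simp only [← pow_add]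
  apply code_inj
  have h1 : code (g ^ 120) = pow120N (code g) := by
    rw [h]
    unfold pow120N
    simp only [force_eq]
    rw [code_mul, code_mul, code_mul, h64, code_mul, h32, code_mul, h16,
      code_mul, h8, code_mul, h4, code_mul, h2, code_mul]
  rw [h1, code_one]
  exact chk_pow120 _ _ _ _ _ (det_eq g)

instance : Finite TG := by
  refine Finite.of_injective (fun A : TG => (A.o, A.a, A.b, A.c, A.d)) ?_
  intro A B h
  simp only [Prod.mk.injEq] at h
  exact TG.ext' h.1 h.2.1 h.2.2.1 h.2.2.2.1 h.2.2.2.2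

end Vale.Agent.P258.R2.H893.D5
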