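import Vale.Agent.P258.R2.H394.Spec2
import Vale.Agent.P258.H331.Main

set_option linter.all false

/-!
A double cover of order `1440` of `PGL(2, 9)`, with a code for each element, in which the kernel
computes products quickly, and the search through the homomorphisms of the first pattern for which
the meridian of `K` is odd.
-/

namespace Vale.Agent.P258.R2.H893.D9

open Second

/-- Sums in the field with nine elements, as a table. -/
def faN (a b : ℕ) : ℕ :=
  Nat.land (Nat.shiftRight 0x435102768354021687543210876102768435021687354210876543768435102687354021876543210 (Nat.mul 4 (Nat.add (Nat.mul 9 a) b))) 15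

/-- Products in the field with nine elements, as a table. -/
def fmN (a b : ℕ) : ℕ :=
  Nat.land (Nat.shiftRight 0x615237480138624570582471360264318750327165840741852630453786120876543210000000000 (Nat.mul 4 (Nat.add (Nat.mul 9 a) b))) 15

/-- Negatives in the field with nine elements, as a table. -/
def fnN (a : ℕ) : ℕ := Nat.land (Nat.shiftRight 0x453786120 (Nat.mul 4 a)) 15

theorem f_lt : ∀ a b : Fin 9, faN a.val b.val < 9 ∧ fmN a.val b.val < 9 ∧ fnN a.val < 9 := by
  decide +kernel

/-- The field with nine elements. -/
structure F9 where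
  val : ℕ
  lt : val < 9

namespace F9

@[ext] theorem ext' {a b : F9} (h : a.val = b.val) : a = b := by
  cases a; cases b; simp_all

def ofFin (a : Fin 9) : F9 := ⟨a.val, a.isLt⟩

def toFin (a : F9) : Fin 9 := ⟨a.val, a.lt⟩

def equivFin : F9 ≃ Fin 9 := ⟨toFin, ofFin, fun _ => rfl, fun _ => rfl⟩

instance : DecidableEq F9 := fun a b => decidable_of_iff (a.val = b.val) ⟨ext', fun h => by rw [h]⟩

instance : Fintype F9 := Fintype.ofEquiv (Fin 9) equivFin.symm

instance : Zero F9 := ⟨⟨0, by decide⟩⟩
instance : One F9 := ⟨⟨1, by decide⟩⟩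
instance : Add F9 := ⟨fun a b => ⟨faN a.val b.val, (f_lt a.toFin b.toFin).1⟩⟩
instance : Neg F9 := ⟨fun a => ⟨fnN a.val, (f_lt a.toFin a.toFin).2.2⟩⟩
instance : Mul F9 := ⟨fun a b => ⟨fmN a.val b.val, (f_lt a.toFin b.toFin).2.1⟩⟩

theorem add_assoc' : ∀ a b c : Fin 9, ofFin a + ofFin b + ofFin c = ofFin a + (ofFin b + ofFin c) := by
  decide +kernel
theorem mul_assoc' : ∀ a b c : Fin 9, ofFin a * ofFin b * ofFin c = ofFin a * (ofFin b * ofFin c) := by
  decide +kernel
theorem left_distrib' : ∀ a b c : Fin 9,
    ofFin a * (ofFin b + ofFin c) = ofFin a * ofFin b + ofFin a * ofFin c := by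
  decide +kernel
theorem add_comm' : ∀ a b : Fin 9, ofFin a + ofFin b = ofFin b + ofFin a := by decide +kernel
theorem mul_comm' : ∀ a b : Fin 9, ofFin a * ofFin b = ofFin b * ofFin a := by decide +kernel
theorem zero_add' : ∀ a : Fin 9, 0 + ofFin a = ofFin a := by decide +kernel
theorem one_mul' : ∀ a : Fin 9, 1 * ofFin a = ofFin a := by decide +kernel
theorem neg_add' : ∀ a : Fin 9, -ofFin a + ofFin a = 0 := by decide +kernel
theorem zero_mul' : ∀ a : Fin 9, 0 * ofFin a = 0 := by decide +kernel
theorem inv' : ∀ a : Fin 9, ofFin a ≠ 0 → ∃ b : Fin 9, ofFin a * ofFin b = 1 := by decide +kernel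

instance : CommRing F9 where
  add_assoc a b c := add_assoc' a.toFin b.toFin c.toFin
  zero_add a := zero_add' a.toFin
  add_zero a := (add_comm' a.toFin 0).trans (zero_add' a.toFin)
  add_comm a b := add_comm' a.toFin b.toFin
  left_distrib a b c := left_distrib' a.toFin b.toFin c.toFin
  right_distrib a b c := by
    have h1 : (a + b) * c = c * (a + b) := mul_comm' (a + b).toFin c.toFin
    have h2 : a * c = c * a := mul_comm' a.toFin c.toFin
    have h3 : b * c = c * b := mul_comm' b.toFin c.toFin
    rw [h1, h2, h3]
    exact left_distrib' c.toFin a.toFin b.toFin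
  zero_mul a := zero_mul' a.toFin
  mul_zero a := (mul_comm' a.toFin 0).trans (zero_mul' a.toFin)
  mul_assoc a b c := mul_assoc' a.toFin b.toFin c.toFin
  one_mul a := one_mul' a.toFin
  mul_one a := (mul_comm' a.toFin 1).trans (one_mul' a.toFin)
  neg_add_cancel a := neg_add' a.toFin
  mul_comm a b := mul_comm' a.toFin b.toFin
  nsmul := nsmulRec
  zsmul := zsmulRec
  npow := npowRec

end F9


def w : F9 := ⟨4, by decide⟩
def wi : F9 := ⟨5, by decide⟩

/-- Matrices over the field with nine elements, of determinant `1` (`o = false`) or a nonsquare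
(`o = true`). -/
structure TG where
  o : Bool
  a : F9
  b : F9
  c : F9
  d : F9
  h : a * d - b * c = if o then w else 1

namespace TG

def kf (x y : Bool) : F9 := if x && y then wi else 1

theorem ext' {x y : TG} (ho : x.o = y.o) (ha : x.a = y.a) (hb : x.b = y.b) (hc : x.c = y.c)
    (hd : x.d = y.d) : x = y := by
  cases x; cases y; simp_all

instance : DecidableEq TG := fun x y =>
  decidable_of_iff (x.o = y.o ∧ x.a = y.a ∧ x.b = y.b ∧ x.c = y.c ∧ x.d = y.d)
    ⟨fun h => ext' h.1 h.2.1 h.2.2.1 h.2.2.2.1 h.2.2.2.2, fun h => by rw [h]; simp⟩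

theorem w_facts : wi * w = 1 ∧ wi * wi * (w * w) = 1 := by decide +kernel

instance : Mul TG := ⟨fun x y => ⟨xor x.o y.o, kf x.o y.o * (x.a * y.a + x.b * y.c),
  kf x.o y.o * (x.a * y.b + x.b * y.d), kf x.o y.o * (x.c * y.a + x.d * y.c),
  kf x.o y.o * (x.c * y.b + x.d * y.d), by
    have h1 := x.h
    have h2 := y.h
    have e : kf x.o y.o * (x.a * y.a + x.b * y.c) * (kf x.o y.o * (x.c * y.b + x.d * y.d)) -
        kf x.o y.o * (x.a * y.b + x.b * y.d) * (kf x.o y.o * (x.c * y.a + x.d * y.c)) =
        kf x.o y.o * kf x.o y.o * ((x.a * x.d - x.b * x.c) * (y.a * y.d - y.b * y.c)) := by ring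
    rw [e, h1, h2]
    cases x.o <;> cases y.o <;> decide +kernel⟩⟩

instance : One TG := ⟨⟨false, 1, 0, 0, 1, by decide +kernel⟩⟩

instance : Inv TG := ⟨fun x => ⟨x.o, x.d, -x.b, -x.c, x.a, by
    have h1 := x.h
    have e : x.d * x.a - -x.b * -x.c = x.a * x.d - x.b * x.c := by ring
    rw [e, h1]⟩⟩

theorem mul_o (x y : TG) : (x * y).o = xor x.o y.o := rfl
theorem mul_a (x y : TG) : (x * y).a = kf x.o y.o * (x.a * y.a + x.b * y.c) := rfl
theorem mul_b (x y : TG) : (x * y).b = kf x.o y.o * (x.a * y.b + x.b * y.d) := rfl
theorem mul_c (x y : TG) : (x * y).c = kf x.o y.o * (x.c * y.a + x.d * y.c) := rfl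
theorem mul_d (x y : TG) : (x * y).d = kf x.o y.o * (x.c * y.b + x.d * y.d) := rfl

instance : Group TG :=
  Group.ofLeftAxioms
    (fun x y z => by
      apply ext' <;> simp only [mul_o, mul_a, mul_b, mul_c, mul_d]
      · cases x.o <;> cases y.o <;> cases z.o <;> rfl
      all_goals
        cases x.o <;> cases y.o <;> cases z.o <;> simp [kf] <;> ring)
    (fun x => by
      apply ext'
      · show xor false x.o = x.o
        simp
      all_goals
        simp only [mul_a, mul_b, mul_c, mul_d]
        show kf false x.o * _ = _
        simp [kf, show (1 : TG).a = 1 from rfl, show (1 : TG).b = 0 from rfl,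
          show (1 : TG).c = 0 from rfl, show (1 : TG).d = 1 from rfl])
    (fun x => by
      have h1 := x.h
      have ia : (x⁻¹).a = x.d := rfl
      have ib : (x⁻¹).b = -x.b := rfl
      have ic : (x⁻¹).c = -x.c := rfl
      have id' : (x⁻¹).d = x.a := rfl
      have io : (x⁻¹).o = x.o := rfl
      have hk : kf x.o x.o * (x.a * x.d - x.b * x.c) = 1 := by
        rw [h1]
        cases x.o <;> decide +kernel
      apply ext'
      · rw [mul_o, io]
        cases x.o <;> rfl
      all_goals
        simp only [mul_a, mul_b, mul_c, mul_d, ia, ib, ic, id', io,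
          show (1 : TG).a = 1 from rfl, show (1 : TG).b = 0 from rfl,
          show (1 : TG).c = 0 from rfl, show (1 : TG).d = 1 from rfl]
        first | linear_combination hk | ring)

end TG

/-- The parity. -/
def eps : TG →* ℤˣ where
  toFun x := if x.o then -1 else 1
  map_one' := rfl
  map_mul' x y := by
    show (if xor x.o y.o then (-1 : ℤˣ) else 1) = (if x.o then -1 else 1) * (if y.o then -1 else 1)
    cases x.o <;> cases y.o <;> decide

/-- The number with the given hexadecimal digits. -/
def cd (o a b c d : ℕ) : ℕ :=
  Nat.add (Nat.add (Nat.add a (Nat.mul 16 b)) (Nat.add (Nat.mul 256 c) (Nat.mul 4096 d)))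
    (Nat.mul 65536 o)

def kN (p q : ℕ) : ℕ := Nat.add 1 (Nat.mul 4 (Nat.land p q))

def dt (k a b c d : ℕ) : ℕ := fmN k (faN (fmN a b) (fmN c d))

def mulA (k o a b c d e f g h : ℕ) : ℕ :=
  cd o (dt k a e b g) (dt k a f b h) (dt k c e d g) (dt k c f d h)

def mulN (x y : ℕ) : ℕ :=
  mulA (kN (Nat.shiftRight x 16) (Nat.shiftRight y 16))
    (Nat.xor (Nat.shiftRight x 16) (Nat.shiftRight y 16))
    (Nat.land x 15) (Nat.land (Nat.shiftRight x 4) 15) (Nat.land (Nat.shiftRight x 8) 15)
    (Nat.land (Nat.shiftRight x 12) 15) (Nat.land y 15) (Nat.land (Nat.shiftRight y 4) 15)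
    (Nat.land (Nat.shiftRight y 8) 15) (Nat.land (Nat.shiftRight y 12) 15)

def invN (x : ℕ) : ℕ :=
  cd (Nat.shiftRight x 16) (Nat.land (Nat.shiftRight x 12) 15)
    (fnN (Nat.land (Nat.shiftRight x 4) 15)) (fnN (Nat.land (Nat.shiftRight x 8) 15))
    (Nat.land x 15)

def cjN (x k : ℕ) : ℕ := mulN (mulN (invN k) x) k

def ciN (x k : ℕ) : ℕ := mulN (mulN k x) (invN k)

/-- A number in `0, ..., 1457` for each element. -/
def keyN (x : ℕ) : ℕ :=
  Nat.add (Nat.add (Nat.add (Nat.mul 81 (Nat.land x 15))
    (Nat.mul 9 (Nat.land (Nat.shiftRight x 4) 15))) (Nat.mul 729 (Nat.shiftRight x 16)))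
    (cond (Nat.beq (Nat.land x 15) 0) (Nat.land (Nat.shiftRight x 12) 15)
      (Nat.land (Nat.shiftRight x 8) 15))

/-- The code of an element conjugating the given one to the representative of its class. -/
def wN (x : ℕ) : ℕ :=
  Nat.land (Nat.shiftRight
    0x113401153011450100101120011120116701001011780366001375032550146801001012370307601051033170047300473010010047300473004730047300473004730100103715033280314401120016480308601081012640350601001031060368101120015650135601011036450058200582005820058200582010010058200582005820012800128001280012800128001280012801001001280033700337003370033700337003370100100337003370182501222015280172301120014260162401021013270120101362010010135601388011010134301001013140133003453037340186303120035780100101041012850100100472004720047200472004720047200472004720133003511018870154203120014150305601001033740115303182031680148401246010010300601061031370058600586005860058601001005860058600586005860012701001001270012700127001270012700127001270033400334003340100100334003340033400334003340133001838011340123701433016320173501031015360100101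2010150101701011010140101601010010130103328013880173501001036540377703036010610127300477004770047700477004770047700477010010047701145010010148403175012370382403016010110334103532011340132703306010010340601285010710310600584005840058400584005840058401001005840058400126001260012600126001260100100126001260012600331003310100100331003310033100331003310033101356018500115301258014520165501757010510155401101015010100101301016480120101683010010140101660038730342201433031370375801001010810114501001004710047100471004710047100471004710047101314037210144701782032100153603076010010354301273031060323801528011860100103006010310326700583005830058300583010010058300583005830058300125010010012500125001250012500125001250012500338003380033801001003380033800338003380033801660014680126401167018630136201565010610176601264012730110101001012100122201237010010125803330014840317501838010010116703056010710362700476004760100100476004760047600476004760047601001035250361803284012100138803046010410113403330010010320603341012100155401468010210338500581005810058100581005810100100581005810058100124001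2400124001240012400124001240100100124003350033500335003350033500335010010033500335014150111201718015130121001816013140101101617010010110101452014470120101468013010100101415036180147001565010010337403557030660103101153004750047500475004750047500475004750100100475012850100101844032550116703414030260102103578033060126401388036060100103783011450105103206005880058800588005880058800588010010058800588001230012300123001230012301001001230012300123003320033201001003320033200332003320033200332016760147001273011780187201375015770107101774015130156501554014010130101001011010100101201016320347001178015800335201264030260100103633004780047800478004780100100478004780047800478012460347003317015800322303151010010103101112011670125801001015800343103487030060104103306010010058700587005870058700587005870058700587001220012200122010010012200122001220012200122003360100100336003360033600336003360033600336014840118601782015800128501887013880108101683015010130101401017400160101001012010100101101013620385001258015770367201134030160100103363004740047400474004740100100474004740047400474011860344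8036270174003113032710100101061012220123701178010010142603406037060300601081036060100100585005850058500585005850058500585005850012100121001210100100121001210012100121001210033301001003330033300333003330033300333003330184401246015420174001145014470164801041013430108101071010610105101041010310102101011010010315103431015360372103271017660124601186010010047000470004700047000470004700047000470010010134301513034220143301683038120324203182010010145203046011120308601362012220306603036010010058000580005800058000580005800058000580010010012000120001200012000120001200012000120010010033000330003300033000330003300033000330010010000000000000000000000000000000000000000000000100101001010010100101001010010100101001010010100101001010010100101001010010100101001010010100101001010010100101001010010100101001010010100101001010010100101001010010100101001010010100101001010010100101001010010100101001010010100101001010010100101001010010100101001010010100101001010010100101001010010100101001010010100101001010010100101001010010100101001010010100101001010010100101001010010100101001010010100101001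0100101001010010100101001010010100101001010010100101001010010100101001010010100101001010010100101001010010100101001010010100101001010010100101001010010100101001010010100101001010010100101001010010100101001010010100101001010010100101001010010100101001010010100101001010010100101001010010100101001010010100101001010010100101001010010100101001010010100101001010010100101001010010100101001010010100101001010010100101001010010100101001010010100101001010010100101001010010100101001010010100101001010010100101001010010100101001010010100101001010010100101001010010100101001010010100101001010010100101001010010100101001010010100101001010010100101001010010100101001010010100101001010010100101001010010100101001010010100101001010010100101001010010100101001010010100101001010010100101001010010100101001010010100101001010010100101001010010100101001010010100101001010010100101001010010100101001010010100101001010010100101001010010100101001010010100101001010010100101001010010100101001010010100101001010010100101001010010100101001010010100101001010010100101001010010100101001010010100101001010010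1001010010100101001010010100101001010010100101001010010100101001010010100101001010010100101001010010100101001010010100101001010010100101001010010100101001010010100101001010010100101001010010100101001010010100101001010010100101001010010100101001010010100101001010010100101001010010100101001010010100101001010010100101001010010100101001010010100101001010010100101001010010100101001010010100101001010010100101001010010100101001010010100101001010010100101001010010100101001010010100101001010010100101001010010100101001010010100101001010010100101001010010100101001010010100101001010010100101001010010100101001010010100101001010010100101001010010100101001010010100101001010010100101001010010100101001010010100101001010010100101001010010100101001010010100101001010010100101001010010100101001010010100101001010010100101001010010100101001010010100101001010010100101001010010100101001010010100101001010010100101001010010100101001010010100101001010010100101001010010100101001010010100101001010010100101001010010100101001010010100101001010010100101001010010100101001010010100101001010010100101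001010010100101001010010100101001010010100101001010010100101001010010100101001010010100101001010010100101001010010100101001010010100101001010010100101001010010100101001010010100101001010010100101001010010100101001010010100101001010010100101001010010100101001010010100101001010010100101001010010100101001010010100101001010010100101001010010100101001010010100101001010010100101001010010100101001010010100101001010010100101001010010100101001010010100101001010010100101001010010100101001010010100101001010010100101001010010100101001010010100101001010010100101001010010100101001010010100101001010010100101001010010100101001010010100101001010010100101001010010100101001010010100101001010010100101001010010100101001010010100101001010010100101001010010100101001010010100101001010010100101001010010100101001010010100101001010010100101001010010100101001010010100101001010010100101001010010100101001010010100101001010010100101001010010100101001010010100101001010010100101001010010100101001010010100101001010010100101001010010100101001000000000000000000000000000000000000000000000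
    (Nat.mul 20 (keyN x))) 1048575

/-- The number of the class: `0` for the even elements and those with `x ^ 4 = 1`. -/
def clN (x : ℕ) : ℕ :=
  Nat.land (Nat.shiftRight
    0x35402168752830641748061523703625814720153486716584032764218350781346205777777777736058247168735402107542683153486720185263074124670538140827365172304856111111111105781346251608473276843510280415637218350764234567801247136058263074185222222222263074185234567801205781346276843510247136058218350764280415637251608473222222222267801234571460382584032716506317428510276843523748061538124670542683107555555555507542683172304856153486720140827365124670538168735402185263074136058247111111111116584032764218350752830641781346205748061523703625814735402168720153486777777777723748061538124670571460382542683107584032716506317428567801234510276843555555555587654321087654321087654321087654321087654321087654321087654321087654321000000000000000000000000000000000000000000000000000000000000000000000000000000000000000000000000000000000000000000000000000000000000000000000000000000000000000000000000000000000000000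0000000000000000000000000000000000000000000000000000000000000000000000000000000000000000000000000000000000000000000000000000000000000000000000000000000000000000000000000000000000000000000000000000000000000000000000000000000000000000000000000000000000000000000000000000000000000000000000000000000000000000000000000000000000000000000000000000000000000000000000000000000000000000000000000000000000000000000000000000000000000000000000000000000000000000000000000000000000000000000000000000000000000000000000000000000000000000000000000000000000000000000000000000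
    (Nat.mul 4 (keyN x))) 15

/-- The codes of the representatives of the classes. -/
def rep (t : ℕ) : ℕ := ([0, 65921, 65922, 65923, 65924, 65925, 65926, 65927, 65928] : List ℕ).getD t 0

/-- The codes of the elements of the class `t`. -/
def cl (t : ℕ) : List ℕ :=
  ([[],
    [65921, 66113, 66385, 66593, 66865, 67185, 67425, 67601, 70016, 70208, 70480, 70688, 70960,
    71280, 71520, 71696, 74082, 74290, 74530, 74818, 75122, 75282, 75602, 75906, 77831, 77847,
    77863, 77879, 77895, 77911, 77927, 77943, 77959, 78087, 78343, 78599, 78855, 79111, 79367,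
    79623, 79879, 82230, 82534, 82710, 83078, 83286, 83494, 83830, 84038, 86392, 86616, 86920,
    87144, 87336, 87624, 87832, 88120, 90420, 90724, 90900, 91268, 91476, 91684, 92020, 92228,
    94211, 94227, 94243, 94259, 94275, 94291, 94307, 94323, 94339, 94467, 94723, 94979, 95235,
    95491, 95747, 96003, 96259, 98677, 98901, 99205, 99429, 99621, 99909, 100117, 100405],
    [65922, 66114, 66386, 66594, 66866, 67186, 67426, 67602, 69985, 70193, 70433, 70721, 71025,
    71185, 71505, 71809, 74112, 74304, 74576, 74784, 75056, 75376, 75616, 75792, 78136, 78440,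
    78616, 78984, 79192, 79400, 79736, 79944, 82295, 82519, 82823, 83047, 83239, 83527, 83735,
    84023, 86022, 86038, 86054, 86070, 86086, 86102, 86118, 86134, 86150, 86278, 86534, 86790,
    87046, 87302, 87558, 87814, 88070, 90117, 90133, 90149, 90165, 90181, 90197, 90213, 90229,
    90245, 90373, 90629, 90885, 91141, 91397, 91653, 91909, 92165, 94580, 94804, 95108, 95332,
    95524, 95812, 96020, 96308, 98611, 98915, 99091, 99459, 99667, 99875, 100211, 100419],
    [65923, 66115, 66387, 66595, 66867, 67187, 67427, 67603, 69909, 70181, 70501, 70741, 70981,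
    71221, 71557, 71797, 74052, 74372, 74612, 74772, 75108, 75348, 75572, 75812, 78208, 78400,
    78672, 78880, 79152, 79472, 79712, 79888, 82242, 82562, 82802, 82962, 83298, 83538, 83762,
    84002, 86289, 86561, 86881, 87121, 87361, 87601, 87937, 88177, 90486, 90710, 91014, 91238,
    91430, 91718, 91926, 92214, 94568, 94776, 95016, 95304, 95608, 95768, 96088, 96392, 98663,
    98871, 99111, 99399, 99703, 99863, 100183, 100487],
    [65924, 66116, 66388, 66596, 66868, 67188, 67428, 67604, 69923, 70163, 70451, 70771, 71043,
    71267, 71491, 71763, 74037, 74341, 74517, 74885, 75093, 75301, 75637, 75845, 78113, 78353,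
    78641, 78961, 79233, 79457, 79681, 79953, 82304, 82496, 82768, 82976, 83248, 83568, 83808,
    83984, 86322, 86626, 86802, 87170, 87378, 87586, 87922, 88130, 90439, 90759, 90999, 91159,
    91495, 91735, 91959, 92199, 94534, 94854, 95094, 95254, 95590, 95830, 96054, 96294, 98648,
    98936, 99144, 99384, 99608, 99976, 100136, 100456],
    [65925, 66117, 66389, 66597, 66869, 67189, 67429, 67605, 69636, 69652, 69668, 69684, 69700,
    69716, 69732, 69748, 69764, 69892, 70148, 70404, 70660, 70916, 71172, 71428, 71684, 74067,
    74355, 74563, 74803, 75027, 75395, 75555, 75875, 78162, 78450, 78658, 78898, 79122, 79490,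
    79650, 79970, 81921, 81937, 81953, 81969, 81985, 82001, 82017, 82033, 82049, 82177, 82433,
    82689, 82945, 83201, 83457, 83713, 83969, 86400, 86592, 86864, 87072, 87344, 87664, 87904,
    88080, 90392, 90664, 90984, 91224, 91464, 91704, 92040, 92280, 94503, 94743, 95031, 95351,
    95623, 95847, 96071, 96343, 98582, 98854, 99174, 99414, 99654, 99894, 100230, 100470],
    [65926, 66118, 66390, 66598, 66870, 67190, 67430, 67606, 69960, 70280, 70520, 70680, 71016,
    71256, 71480, 71720, 74007, 74279, 74599, 74839, 75079, 75319, 75655, 75895, 78195, 78419,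
    78723, 78947, 79139, 79427, 79635, 79923, 82277, 82485, 82725, 83013, 83317, 83477, 83797,
    84101, 86372, 86580, 86820, 87108, 87412, 87572, 87892, 88196, 90496, 90688, 90960, 91168,
    91440, 91760, 92000, 92176, 94482, 94754, 95074, 95314, 95554, 95794, 96130, 96370, 98625,
    98945, 99185, 99345, 99681, 99921, 100145, 100385],
    [65927, 66119, 66391, 66599, 66871, 67191, 67431, 67607, 69974, 70262, 70470, 70710, 70934,
    71302, 71462, 71782, 73736, 73752, 73768, 73784, 73800, 73816, 73832, 73848, 73864, 73992,
    74248, 74504, 74760, 75016, 75272, 75528, 75784, 78100, 78372, 78692, 78932, 79172, 79412,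
    79748, 79988, 82195, 82467, 82787, 83027, 83267, 83507, 83843, 84083, 86309, 86549, 86837,
    87157, 87429, 87653, 87877, 88149, 90449, 90737, 90945, 91185, 91409, 91777, 91937, 92257,
    94592, 94784, 95056, 95264, 95536, 95856, 96096, 96272, 98306, 98322, 98338, 98354, 98370,
    98386, 98402, 98418, 98434, 98562, 98818, 99074, 99330, 99586, 99842, 100098, 100354],
    [65928, 66120, 66392, 66600, 66872, 67192, 67432, 67608, 69943, 70247, 70423, 70791, 70999,
    71207, 71543, 71751, 74022, 74262, 74550, 74870, 75142, 75366, 75590, 75862, 78149, 78469,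
    78709, 78869, 79205, 79445, 79669, 79909, 82260, 82548, 82756, 82996, 83220, 83588, 83748,
    84068, 86339, 86659, 86899, 87059, 87395, 87635, 87859, 88099, 90402, 90642, 90930, 91250,
    91522, 91746, 91970, 92242, 94513, 94817, 94993, 95361, 95569, 95777, 96113, 96321, 98688,
    98880, 99152, 99360, 99632, 99952, 100192, 100368]] : List (List ℕ)).getD t []

/-- The codes of the elements commuting with the representative of the class `t`. -/
def cen (t : ℕ) : List ℕ :=
  ([[],
    [4097, 5912, 8194, 9508, 17464, 18194, 34081, 34916, 65921, 66114, 70208, 71782, 74112,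
    74803, 79970, 91185],
    [4097, 5416, 8194, 10004, 17698, 18536, 33844, 34577, 65922, 66113, 70016, 70710, 74304,
    75875, 78898, 92257],
    [4097, 5171, 8194, 10342, 13908, 14433, 17267, 25464, 25650, 34390, 65923, 66118, 78400,
    78709, 87095, 87635, 90496, 91735, 95094, 96357],
    [4097, 4678, 8194, 8579, 12866, 14101, 21795, 24961, 25895, 30486, 65924, 66120, 70946,
    71256, 74612, 75537, 82496, 83538, 98688, 99185],
    [4097, 5717, 8194, 9079, 20871, 21361, 29253, 30290, 65925, 66119, 83239, 86592, 87336,
    94592, 96020, 100117],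
    [4097, 6243, 8194, 9270, 13172, 13361, 18003, 26200, 26722, 33654, 65926, 66115, 78208,
    79445, 86899, 88167, 90688, 90999, 95285, 95830],
    [4097, 4981, 8194, 9815, 21063, 22097, 29061, 29554, 65927, 66117, 83735, 86400, 87832,
    94784, 95524, 99621],
    [4097, 4486, 8194, 8771, 12674, 13605, 22291, 25153, 26391, 29990, 65928, 66116, 70520,
    71442, 75041, 75348, 82304, 82802, 98880, 99921]] : List (List ℕ)).getD t []

/-- The codes of representatives of the elements of the class `t` up to conjugation by elements
commuting with the representative of the class. -/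
def orb (t : ℕ) : List ℕ :=
  ([[],
    [65921, 66113, 66385, 66593, 67425, 67601, 70016, 70208, 70480, 70688, 70960, 71520, 77895],
    [65922, 66114, 66386, 66594, 67426, 67602, 69985, 71185, 71505, 74304, 74576, 75616, 82519],
    [65923, 66115, 66387, 66595, 67427, 69909, 70501, 75108, 78400],
    [65924, 66116, 66388, 66596, 67428, 69923, 70163, 70451, 82496],
    [65925, 66117, 66389, 66597, 66869, 67429, 69668, 69684, 69700, 69732, 69764, 71684, 86592],
    [65926, 66118, 66390, 66598, 67430, 69960, 71016, 71256, 90688],
    [65927, 66119, 66391, 66599, 66871, 67431, 69974, 70262, 70470, 70710, 73768, 73784, 94784],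
    [65928, 66120, 66392, 66600, 67432, 69943, 74262, 74550, 98880]] : List (List ℕ)).getD t []

theorem cd_dg' : ∀ (o : Bool) (a b c d : Fin 9),
    Nat.shiftRight (cd o.toNat a.val b.val c.val d.val) 16 = o.toNat ∧
    Nat.land (cd o.toNat a.val b.val c.val d.val) 15 = a.val ∧
    Nat.land (Nat.shiftRight (cd o.toNat a.val b.val c.val d.val) 4) 15 = b.val ∧
    Nat.land (Nat.shiftRight (cd o.toNat a.val b.val c.val d.val) 8) 15 = c.val ∧
    Nat.land (Nat.shiftRight (cd o.toNat a.val b.val c.val d.val) 12) 15 = d.val := by
  decide +kernel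

theorem cd_dg (o : Bool) (a b c d : F9) :
    Nat.shiftRight (cd o.toNat a.val b.val c.val d.val) 16 = o.toNat ∧
    Nat.land (cd o.toNat a.val b.val c.val d.val) 15 = a.val ∧
    Nat.land (Nat.shiftRight (cd o.toNat a.val b.val c.val d.val) 4) 15 = b.val ∧
    Nat.land (Nat.shiftRight (cd o.toNat a.val b.val c.val d.val) 8) 15 = c.val ∧
    Nat.land (Nat.shiftRight (cd o.toNat a.val b.val c.val d.val) 12) 15 = d.val :=
  cd_dg' o a.toFin b.toFin c.toFin d.toFin

theorem xor_nat (x y : Bool) : (xor x y).toNat = Nat.xor x.toNat y.toNat := by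
  cases x <;> cases y <;> rfl

theorem kf_val (x y : Bool) : (TG.kf x y).val = kN x.toNat y.toNat := by
  cases x <;> cases y <;> rfl

/-- The code of an element. -/
def code (A : TG) : ℕ := cd A.o.toNat A.a.val A.b.val A.c.val A.d.val

theorem code_mul (A B : TG) : code (A * B) = mulN (code A) (code B) := by
  obtain ⟨h0, h1, h2, h3, h4⟩ := cd_dg A.o A.a A.b A.c A.d
  obtain ⟨k0, k1, k2, k3, k4⟩ := cd_dg B.o B.a B.b B.c B.d
  unfold mulN code
  rw [h0, h1, h2, h3, h4, k0, k1, k2, k3, k4]
  rw [TG.mul_o, TG.mul_a, TG.mul_b, TG.mul_c, TG.mul_d, xor_nat, ← kf_val]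
  rfl

theorem code_inv (A : TG) : code A⁻¹ = invN (code A) := by
  obtain ⟨h0, h1, h2, h3, h4⟩ := cd_dg A.o A.a A.b A.c A.d
  unfold invN
  have e : code A = cd A.o.toNat A.a.val A.b.val A.c.val A.d.val := rfl
  rw [e, h0, h1, h2, h3, h4]
  rfl

theorem code_one : code 1 = 4097 := by decide +kernel

theorem toNat_inj {x y : Bool} (h : x.toNat = y.toNat) : x = y := by
  cases x <;> cases y <;> simp_all

theorem code_inj {A B : TG} (h : code A = code B) : A = B := by
  obtain ⟨h0, h1, h2, h3, h4⟩ := cd_dg A.o A.a A.b A.c A.d
  obtain ⟨k0, k1, k2, k3, k4⟩ := cd_dg B.o B.a B.b B.c B.d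
  unfold code at h
  rw [h] at h0 h1 h2 h3 h4
  exact TG.ext' (toNat_inj (h0.symm.trans k0)) (F9.ext' (h1.symm.trans k1))
    (F9.ext' (h2.symm.trans k2)) (F9.ext' (h3.symm.trans k3)) (F9.ext' (h4.symm.trans k4))

theorem code_cj (x k : TG) : code (k⁻¹ * x * k) = cjN (code x) (code k) := by
  rw [code_mul, code_mul, code_inv]; rfl

theorem code_ci (x k : TG) : code (k * x * k⁻¹) = ciN (code x) (code k) := by
  rw [code_mul, code_mul, code_inv]; rfl

def dv (o a b c d : ℕ) : Bool :=
  Nat.beq (faN (fmN a d) (fnN (fmN b c))) (Nat.add 1 (Nat.mul 3 o))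

theorem det_iff (o : Bool) (a b c d : F9) : (a * d - b * c = if o then w else 1) ↔
    dv o.toNat a.val b.val c.val d.val = true := by
  rw [sub_eq_add_neg]
  constructor
  · intro h
    have h2 := congrArg F9.val h
    have h3 : faN (fmN a.val d.val) (fnN (fmN b.val c.val)) = Nat.add 1 (Nat.mul 3 o.toNat) := by
      refine h2.trans ?_
      cases o <;> rfl
    unfold dv
    rw [h3]
    exact Nat.beq_refl _
  · intro h
    apply F9.ext'
    unfold dv at h
    refine (Nat.eq_of_beq_eq_true h).trans ?_
    cases o <;> rfl

theorem det_eq (A : TG) : dv A.o.toNat A.a.val A.b.val A.c.val A.d.val = true :=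
  (det_iff _ _ _ _ _).1 A.h

/-- The number `x` is a code. -/
def isCode (x : ℕ) : Bool :=
  Nat.blt (Nat.land x 15) 9 && Nat.blt (Nat.land (Nat.shiftRight x 4) 15) 9 &&
    Nat.blt (Nat.land (Nat.shiftRight x 8) 15) 9 && Nat.blt (Nat.land (Nat.shiftRight x 12) 15) 9 &&
    dv (Nat.beq (Nat.shiftRight x 16) 1).toNat (Nat.land x 15) (Nat.land (Nat.shiftRight x 4) 15)
      (Nat.land (Nat.shiftRight x 8) 15) (Nat.land (Nat.shiftRight x 12) 15) &&
    Nat.beq (cd (Nat.beq (Nat.shiftRight x 16) 1).toNat (Nat.land x 15)
      (Nat.land (Nat.shiftRight x 4) 15) (Nat.land (Nat.shiftRight x 8) 15)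
      (Nat.land (Nat.shiftRight x 12) 15)) x

theorem exists_code {x : ℕ} (h : isCode x = true) : ∃ A : TG, code A = x := by
  unfold isCode at h
  simp only [Bool.and_eq_true] at h
  obtain ⟨⟨⟨⟨⟨h1, h2⟩, h3⟩, h4⟩, h5⟩, h6⟩ := h
  have l1 : Nat.land x 15 < 9 := by simpa using h1
  have l2 : Nat.land (Nat.shiftRight x 4) 15 < 9 := by simpa using h2
  have l3 : Nat.land (Nat.shiftRight x 8) 15 < 9 := by simpa using h3
  have l4 : Nat.land (Nat.shiftRight x 12) 15 < 9 := by simpa using h4
  let a : F9 := ⟨_, l1⟩
  let b : F9 := ⟨_, l2⟩
  let c : F9 := ⟨_, l3⟩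
  let d : F9 := ⟨_, l4⟩
  exact ⟨⟨Nat.beq (Nat.shiftRight x 16) 1, a, b, c, d, (det_iff _ a b c d).2 h5⟩,
    Nat.eq_of_beq_eq_true h6⟩

/-- Facts about all elements, checked by enumeration. -/
theorem all_facts' : ∀ (o : Bool) (a b c d : Fin 9),
    dv o.toNat a.val b.val c.val d.val = true →
    (clN (cd o.toNat a.val b.val c.val d.val) < 9) ∧
    (clN (cd o.toNat a.val b.val c.val d.val) = 0 ↔ (o = false ∨
      mulN (mulN (cd o.toNat a.val b.val c.val d.val) (cd o.toNat a.val b.val c.val d.val))
        (mulN (cd o.toNat a.val b.val c.val d.val) (cd o.toNat a.val b.val c.val d.val)) = 4097)) ∧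
    (cd o.toNat a.val b.val c.val d.val ∈ cl (clN (cd o.toNat a.val b.val c.val d.val)) ∨
      clN (cd o.toNat a.val b.val c.val d.val) = 0) ∧
    (clN (cd o.toNat a.val b.val c.val d.val) ≠ 0 →
      isCode (wN (cd o.toNat a.val b.val c.val d.val)) = true ∧
      mulN (wN (cd o.toNat a.val b.val c.val d.val)) (cd o.toNat a.val b.val c.val d.val) =
        mulN (rep (clN (cd o.toNat a.val b.val c.val d.val)))
          (wN (cd o.toNat a.val b.val c.val d.val))) := by
  decide +kernel

theorem all_facts (A : TG) :
    (clN (code A) < 9) ∧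
    (clN (code A) = 0 ↔ (A.o = false ∨ mulN (mulN (code A) (code A)) (mulN (code A) (code A)) = 4097)) ∧
    (code A ∈ cl (clN (code A)) ∨ clN (code A) = 0) ∧
    (clN (code A) ≠ 0 → isCode (wN (code A)) = true ∧
      mulN (wN (code A)) (code A) = mulN (rep (clN (code A))) (wN (code A))) :=
  all_facts' A.o A.a.toFin A.b.toFin A.c.toFin A.d.toFin (det_eq A)

theorem rep_facts' : ∀ t : Fin 9, t.val ≠ 0 → isCode (rep t.val) = true ∧
    ∀ (o : Bool) (a b c d : Fin 9), dv o.toNat a.val b.val c.val d.val = true →
      clN (cjN (rep t.val) (cd o.toNat a.val b.val c.val d.val)) = t.val ∧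
      (mulN (rep t.val) (cd o.toNat a.val b.val c.val d.val) =
        mulN (cd o.toNat a.val b.val c.val d.val) (rep t.val) →
        cd o.toNat a.val b.val c.val d.val ∈ cen t.val) := by
  decide +kernel

theorem rep_facts {t : ℕ} (ht : t < 9) (h0 : t ≠ 0) : isCode (rep t) = true ∧
    ∀ A : TG, clN (cjN (rep t) (code A)) = t ∧
      (mulN (rep t) (code A) = mulN (code A) (rep t) → code A ∈ cen t) :=
  ⟨(rep_facts' ⟨t, ht⟩ h0).1, fun A => (rep_facts' ⟨t, ht⟩ h0).2 A.o A.a.toFin A.b.toFin
    A.c.toFin A.d.toFin (det_eq A)⟩

theorem orb_facts : ∀ t : Fin 9, (cl t.val).all (fun x => (cen t.val).any fun c =>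
    isCode c && Nat.beq (mulN (rep t.val) c) (mulN c (rep t.val)) &&
      (orb t.val).any fun y => Nat.beq y (cjN x c)) = true := by
  decide +kernel

/-- The number of the class of an element. -/
def cls (A : TG) : ℕ := clN (code A)

theorem cls_lt (A : TG) : cls A < 9 := (all_facts A).1

theorem eps_iff (A : TG) : eps A = 1 ↔ A.o = false := by
  show (if A.o then (-1 : ℤˣ) else 1) = 1 ↔ _
  cases A.o <;> decide

theorem cls_zero (A : TG) : cls A = 0 ↔ (eps A = 1 ∨ A * A * (A * A) = 1) := by
  have h := (all_facts A).2.1
  rw [eps_iff]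
  constructor
  · intro h0
    rcases h.1 h0 with h1 | h1
    · exact Or.inl h1
    · right
      apply code_inj
      rw [code_one]
      simp only [code_mul]
      exact h1
  · rintro (h1 | h1)
    · exact h.2 (Or.inl h1)
    · apply h.2
      right
      have := congrArg code h1
      rw [code_one] at this
      simpa only [code_mul] using this

theorem mem_cl {A : TG} (h : cls A ≠ 0) : code A ∈ cl (cls A) :=
  ((all_facts A).2.2.1).resolve_right h

theorem exists_w {A : TG} (h : cls A ≠ 0) :
    ∃ W R : TG, code W = wN (code A) ∧ code R = rep (cls A) ∧ W * A = R * W := by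
  obtain ⟨h1, h2⟩ := (all_facts A).2.2.2 h
  obtain ⟨W, hW⟩ := exists_code h1
  obtain ⟨R, hR⟩ := exists_code (rep_facts (cls_lt A) h).1
  refine ⟨W, R, hW, hR, code_inj ?_⟩
  rw [code_mul, code_mul, hW, hR]
  exact h2

theorem cls_rep {t : ℕ} (ht : t < 9) (h0 : t ≠ 0) {R : TG} (hR : code R = rep t) (k : TG) :
    cls (k⁻¹ * R * k) = t := by
  unfold cls
  rw [code_cj, hR]
  exact ((rep_facts ht h0).2 k).1

theorem mem_cen {t : ℕ} (ht : t < 9) (h0 : t ≠ 0) {R : TG} (hR : code R = rep t) {A : TG}
    (h : R * A = A * R) : code A ∈ cen t := by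
  have h2 := congrArg code h
  rw [code_mul, code_mul, hR] at h2
  exact ((rep_facts ht h0).2 A).2 h2

theorem cls_conj (x k : TG) : cls (k⁻¹ * x * k) = cls x := by
  by_cases h : cls x = 0
  · rw [h, cls_zero]
    rw [cls_zero] at h
    rcases h with h | h
    · left
      rw [map_mul, map_mul, h, mul_one, map_inv, inv_mul_cancel]
    · right
      calc k⁻¹ * x * k * (k⁻¹ * x * k) * (k⁻¹ * x * k * (k⁻¹ * x * k)) =
          k⁻¹ * (x * x * (x * x)) * k := by group
        _ = 1 := by rw [h]; group
  · obtain ⟨W, R, hW, hR, e⟩ := exists_w h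
    have hx : x = W⁻¹ * R * W := by rw [mul_assoc, ← e]; group
    have : k⁻¹ * x * k = (W * k)⁻¹ * R * (W * k) := by
      conv_lhs => rw [hx]
      group
    rw [this]
    exact cls_rep (cls_lt x) h hR _

/-- All elements conjugating `g` to `h`. -/
theorem transporter {g h y : TG} (hg : cls g ≠ 0) (hy : h = y⁻¹ * g * y) :
    ∃ c ∈ cen (cls g), code y = mulN (mulN (invN (wN (code g))) c) (wN (code h)) := by
  have ht : cls h = cls g := by rw [hy, cls_conj]
  have hh : cls h ≠ 0 := by rw [ht]; exact hg
  obtain ⟨Wg, C, hWg, hC, eg⟩ := exists_w hg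
  obtain ⟨Wh, C', hWh, hC', eh⟩ := exists_w hh
  have e0 : C' = C := code_inj (by rw [hC, hC', ht])
  rw [e0] at eh
  have eg' : g = Wg⁻¹ * C * Wg := by rw [mul_assoc, ← eg]; group
  have eh' : h = Wh⁻¹ * C * Wh := by rw [mul_assoc, ← eh]; group
  refine ⟨code (Wg * y * Wh⁻¹), ?_, ?_⟩
  · refine mem_cen (cls_lt g) hg hC ?_
    have h1 : Wh⁻¹ * C * Wh = y⁻¹ * (Wg⁻¹ * C * Wg) * y := by rw [← eg', ← eh', hy]
    calc C * (Wg * y * Wh⁻¹)
        = Wg * y * (y⁻¹ * (Wg⁻¹ * C * Wg) * y) * Wh⁻¹ := by group
      _ = Wg * y * (Wh⁻¹ * C * Wh) * Wh⁻¹ := by rw [h1]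
      _ = Wg * y * Wh⁻¹ * C := by group
  · rw [← hWg, ← hWh, ← code_inv, ← code_mul, ← code_mul]
    congr 1
    group

/-- Two elements of the same class, up to simultaneous conjugation. -/
theorem exists_w2 {A B : TG} (h : cls A ≠ 0) (hB : cls B = cls A) :
    ∃ W R : TG, code R = rep (cls A) ∧ W * A * W⁻¹ = R ∧ code (W * B * W⁻¹) ∈ orb (cls A) := by
  obtain ⟨W, R, hW, hR, e⟩ := exists_w h
  have hBc : cls (W * B * W⁻¹) = cls A := by
    have := cls_conj B W⁻¹
    rw [inv_inv] at this
    rw [this, hB]
  have hm : code (W * B * W⁻¹) ∈ cl (cls A) := by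
    have := mem_cl (A := W * B * W⁻¹) (by rw [hBc]; exact h)
    rwa [hBc] at this
  have h1 := List.all_eq_true.1 (orb_facts ⟨cls A, cls_lt A⟩) _ hm
  obtain ⟨c, hc, h2⟩ := List.any_eq_true.1 h1
  simp only [Bool.and_eq_true] at h2
  obtain ⟨⟨h3, h4⟩, h5⟩ := h2
  obtain ⟨y, hy, h6⟩ := List.any_eq_true.1 h5
  obtain ⟨C, hC⟩ := exists_code h3
  have h7 : R * C = C * R := code_inj (by
    rw [code_mul, code_mul, hR, hC]; exact Nat.eq_of_beq_eq_true h4)
  have h8 : y = cjN (code (W * B * W⁻¹)) c := Nat.eq_of_beq_eq_true h6
  refine ⟨C⁻¹ * W, R, hR, ?_, ?_⟩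
  · calc C⁻¹ * W * A * (C⁻¹ * W)⁻¹ = C⁻¹ * (W * A) * W⁻¹ * C := by group
      _ = C⁻¹ * (R * W) * W⁻¹ * C := by rw [e]
      _ = C⁻¹ * (R * C) := by group
      _ = C⁻¹ * (C * R) := by rw [h7]
      _ = R := by group
  · have h9 : C⁻¹ * W * B * (C⁻¹ * W)⁻¹ = C⁻¹ * (W * B * W⁻¹) * C := by group
    rw [h9, code_cj, hC, ← h8]
    exact hy


def st24 (t : ℕ) (cl cen orb : List ℕ) (g0 g3 g12 g18 g13 g14 g17 g2 g16 g1 g4 g8 g9 g10 g11 g15 g7 g5 g6 g20 g19 : ℕ) : Bool :=
  (Nat.beq (mulN (invN g6) g10) 4097 && !(Nat.beq g19 4097)) ||
    Nat.beq (Nat.shiftRight g19 16) 1 ||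
    !(Nat.beq (mulN g0 g0) (mulN (mulN (mulN (mulN (mulN (mulN (mulN (mulN (mulN (mulN (mulN (mulN (mulN (mulN (mulN (mulN (mulN (mulN (mulN g8 (invN g17)) g14) (invN g1)) g15) (invN g20)) (invN g15)) g1) (invN g14)) g17) g19) (invN g8)) (invN g18)) g3) (invN g10)) g11) (invN g14)) (invN g3)) (invN g12)) (mulN g0 (mulN g0 g0))))

def st23 (t : ℕ) (cl cen orb : List ℕ) (g0 g3 g12 g18 g13 g14 g17 g2 g16 g1 g4 g8 g9 g10 g11 g15 g7 g5 g6 g20 g19 : ℕ) : Bool :=
  !(Nat.beq g11 (cjN g10 g19)) || st24 t cl cen orb g0 g3 g12 g18 g13 g14 g17 g2 g16 g1 g4 g8 g9 g10 g11 g15 g7 g5 g6 g20 g19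

def st22 (t : ℕ) (cl cen orb : List ℕ) (g0 g3 g12 g18 g13 g14 g17 g2 g16 g1 g4 g8 g9 g10 g11 g15 g7 g5 g6 g20 g19 : ℕ) : Bool :=
  !(Nat.beq g19 (cjN g20 g6)) || st23 t cl cen orb g0 g3 g12 g18 g13 g14 g17 g2 g16 g1 g4 g8 g9 g10 g11 g15 g7 g5 g6 g20 g19

def st21 (t : ℕ) (cl cen orb : List ℕ) (g0 g3 g12 g18 g13 g14 g17 g2 g16 g1 g4 g8 g9 g10 g11 g15 g7 g5 g6 g20 : ℕ) : Bool :=
  force (cjN g20 g10) fun g19 => st22 t cl cen orb g0 g3 g12 g18 g13 g14 g17 g2 g16 g1 g4 g8 g9 g10 g11 g15 g7 g5 g6 g20 g19

def st20 (t : ℕ) (cl cen orb : List ℕ) (g0 g3 g12 g18 g13 g14 g17 g2 g16 g1 g4 g8 g9 g10 g11 g15 g7 g5 g6 : ℕ) : Bool :=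
  force (invN (wN g6)) fun u => force (wN g5) fun w => cen.all fun c =>
    force (mulN (mulN u c) w) fun g20 => st21 t cl cen orb g0 g3 g12 g18 g13 g14 g17 g2 g16 g1 g4 g8 g9 g10 g11 g15 g7 g5 g6 g20

def st19 (t : ℕ) (cl cen orb : List ℕ) (g0 g3 g12 g18 g13 g14 g17 g2 g16 g1 g4 g8 g9 g10 g11 g15 g7 g5 : ℕ) : Bool :=
  force (cjN g7 g15) fun g6 => st20 t cl cen orb g0 g3 g12 g18 g13 g14 g17 g2 g16 g1 g4 g8 g9 g10 g11 g15 g7 g5 g6

def st18 (t : ℕ) (cl cen orb : List ℕ) (g0 g3 g12 g18 g13 g14 g17 g2 g16 g1 g4 g8 g9 g10 g11 g15 g7 : ℕ) : Bool :=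
  force (cjN g4 g15) fun g5 => st19 t cl cen orb g0 g3 g12 g18 g13 g14 g17 g2 g16 g1 g4 g8 g9 g10 g11 g15 g7 g5

def st17 (t : ℕ) (cl cen orb : List ℕ) (g0 g3 g12 g18 g13 g14 g17 g2 g16 g1 g4 g8 g9 g10 g11 g15 : ℕ) : Bool :=
  force (ciN g8 g1) fun g7 => st18 t cl cen orb g0 g3 g12 g18 g13 g14 g17 g2 g16 g1 g4 g8 g9 g10 g11 g15 g7

def st16 (t : ℕ) (cl cen orb : List ℕ) (g0 g3 g12 g18 g13 g14 g17 g2 g16 g1 g4 g8 g9 g10 g11 g15 : ℕ) : Bool :=
  !(Nat.beq g16 (cjN g15 g11)) || st17 t cl cen orb g0 g3 g12 g18 g13 g14 g17 g2 g16 g1 g4 g8 g9 g10 g11 g15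

def st15 (t : ℕ) (cl cen orb : List ℕ) (g0 g3 g12 g18 g13 g14 g17 g2 g16 g1 g4 g8 g9 g10 g11 : ℕ) : Bool :=
  force (ciN g14 g10) fun g15 => st16 t cl cen orb g0 g3 g12 g18 g13 g14 g17 g2 g16 g1 g4 g8 g9 g10 g11 g15

def st14 (t : ℕ) (cl cen orb : List ℕ) (g0 g3 g12 g18 g13 g14 g17 g2 g16 g1 g4 g8 g9 g10 : ℕ) : Bool :=
  force (cjN g12 g8) fun g11 => st15 t cl cen orb g0 g3 g12 g18 g13 g14 g17 g2 g16 g1 g4 g8 g9 g10 g11

def st13 (t : ℕ) (cl cen orb : List ℕ) (g0 g3 g12 g18 g13 g14 g17 g2 g16 g1 g4 g8 g9 : ℕ) : Bool :=
  force (cjN g9 g17) fun g10 => st14 t cl cen orb g0 g3 g12 g18 g13 g14 g17 g2 g16 g1 g4 g8 g9 g10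

def st12 (t : ℕ) (cl cen orb : List ℕ) (g0 g3 g12 g18 g13 g14 g17 g2 g16 g1 g4 g8 : ℕ) : Bool :=
  force (ciN g8 g14) fun g9 => st13 t cl cen orb g0 g3 g12 g18 g13 g14 g17 g2 g16 g1 g4 g8 g9

def st11 (t : ℕ) (cl cen orb : List ℕ) (g0 g3 g12 g18 g13 g14 g17 g2 g16 g1 g4 g8 : ℕ) : Bool :=
  !(Nat.beq (clN g8) t) || st12 t cl cen orb g0 g3 g12 g18 g13 g14 g17 g2 g16 g1 g4 g8

def st10 (t : ℕ) (cl cen orb : List ℕ) (g0 g3 g12 g18 g13 g14 g17 g2 g16 g1 g4 : ℕ) : Bool :=
  force (invN (wN g0)) fun u => force (wN g1) fun w => cen.all fun c =>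
    force (mulN (mulN u c) w) fun g8 => st11 t cl cen orb g0 g3 g12 g18 g13 g14 g17 g2 g16 g1 g4 g8

def st9 (t : ℕ) (cl cen orb : List ℕ) (g0 g3 g12 g18 g13 g14 g17 g2 g16 g1 : ℕ) : Bool :=
  force (ciN g3 g1) fun g4 => st10 t cl cen orb g0 g3 g12 g18 g13 g14 g17 g2 g16 g1 g4

def st8 (t : ℕ) (cl cen orb : List ℕ) (g0 g3 g12 g18 g13 g14 g17 g2 g16 : ℕ) : Bool :=
  force (cjN g2 g17) fun g1 => st9 t cl cen orb g0 g3 g12 g18 g13 g14 g17 g2 g16 g1

def st7 (t : ℕ) (cl cen orb : List ℕ) (g0 g3 g12 g18 g13 g14 g17 g2 : ℕ) : Bool :=
  force (cjN g17 g14) fun g16 => st8 t cl cen orb g0 g3 g12 g18 g13 g14 g17 g2 g16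

def st6 (t : ℕ) (cl cen orb : List ℕ) (g0 g3 g12 g18 g13 g14 g17 : ℕ) : Bool :=
  force (ciN g3 g14) fun g2 => st7 t cl cen orb g0 g3 g12 g18 g13 g14 g17 g2

def st5 (t : ℕ) (cl cen orb : List ℕ) (g0 g3 g12 g18 g13 g14 : ℕ) : Bool :=
  force (cjN g18 g3) fun g17 => st6 t cl cen orb g0 g3 g12 g18 g13 g14 g17

def st4 (t : ℕ) (cl cen orb : List ℕ) (g0 g3 g12 g18 g13 : ℕ) : Bool :=
  force (cjN g13 g3) fun g14 => st5 t cl cen orb g0 g3 g12 g18 g13 g14

def st3 (t : ℕ) (cl cen orb : List ℕ) (g0 g3 g12 g18 : ℕ) : Bool :=
  force (ciN g12 g18) fun g13 => st4 t cl cen orb g0 g3 g12 g18 g13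

def st2 (t : ℕ) (cl cen orb : List ℕ) (g0 g3 g12 : ℕ) : Bool :=
  force (cjN g0 g12) fun g18 => st3 t cl cen orb g0 g3 g12 g18

def st1 (t : ℕ) (cl cen orb : List ℕ) (g0 g3 : ℕ) : Bool :=
  cl.all fun g12 => st2 t cl cen orb g0 g3 g12

def st0 (t : ℕ) (cl cen orb : List ℕ) (g0 : ℕ) : Bool :=
  orb.all fun g3 => st1 t cl cen orb g0 g3

def chk (t : ℕ) : Bool := force (rep t) fun g0 => st0 t (cl t) (cen t) (orb t) g0


end Vale.Agent.P258.R2.H893.D9
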